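import Vale.Agent.P108.MathlibUsed
import Vale.Agent.P108.Defs

set_option linter.all false

section

section

section

open MeasureTheory Filter Set Topology

namespace Vale.Agent.P108

section Basic

/-- bounded sequences: basic boundedness facts for `S n / n`. -/
lemma bdd_div {g : ℕ → ℝ} {C : ℝ} (hC0 : 0 ≤ C) (h0 : ∀ n, 0 ≤ g n) (hC : ∀ n, g n ≤ C * n)
    (n : ℕ) : 0 ≤ g n / n ∧ g n / n ≤ C := by
  refine ⟨div_nonneg (h0 n) (Nat.cast_nonneg n), ?_⟩
  rcases Nat.eq_zero_or_pos n with rfl | hn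
  · simpa only [CharP.cast_eq_zero, div_zero] using hC0
  · have : (0 : ℝ) < n := by exact_mod_cast hn
    rw [div_le_iff₀ this]
    exact hC n

lemma isBoundedUnder_le_div {g : ℕ → ℝ} {C : ℝ} (hC0 : 0 ≤ C) (h0 : ∀ n, 0 ≤ g n)
    (hC : ∀ n, g n ≤ C * n) :
    IsBoundedUnder (· ≤ ·) atTop (fun n : ℕ => g n / n) :=
  isBoundedUnder_of ⟨C, fun n => (bdd_div hC0 h0 hC n).2⟩

lemma isCoboundedUnder_le_div {g : ℕ → ℝ} {C : ℝ} (hC0 : 0 ≤ C) (h0 : ∀ n, 0 ≤ g n)
    (hC : ∀ n, g n ≤ C * n) :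
    IsCoboundedUnder (· ≤ ·) atTop (fun n : ℕ => g n / n) :=
  (isBoundedUnder_of ⟨0, fun n => (bdd_div hC0 h0 hC n).1⟩ :
    IsBoundedUnder (· ≥ ·) atTop (fun n : ℕ => g n / n)).isCoboundedUnder_le

lemma limsup_div_nonneg {g : ℕ → ℝ} {C : ℝ} (hC0 : 0 ≤ C) (h0 : ∀ n, 0 ≤ g n)
    (hC : ∀ n, g n ≤ C * n) : 0 ≤ limsup (fun n : ℕ => g n / n) atTop := by
  refine le_limsup_of_frequently_le ?_ (isBoundedUnder_le_div hC0 h0 hC)
  exact Frequently.of_forall fun n => (bdd_div hC0 h0 hC n).1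

lemma limsup_div_le {g : ℕ → ℝ} {C : ℝ} (hC0 : 0 ≤ C) (h0 : ∀ n, 0 ≤ g n)
    (hC : ∀ n, g n ≤ C * n) : limsup (fun n : ℕ => g n / n) atTop ≤ C := by
  refine limsup_le_of_le (isCoboundedUnder_le_div hC0 h0 hC) ?_
  exact Eventually.of_forall fun n => (bdd_div hC0 h0 hC n).2

lemma limsup_le_of_le_add {u v w : ℕ → ℝ} (h : ∀ᶠ n in atTop, u n ≤ v n + w n)
    (hw : Tendsto w atTop (𝓝 0)) (hu : IsCoboundedUnder (· ≤ ·) atTop u)
    (hv : IsBoundedUnder (· ≤ ·) atTop v) : limsup u atTop ≤ limsup v atTop := by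
  refine le_of_forall_pos_le_add fun ε hε => ?_
  refine limsup_le_of_le hu ?_
  have h1 : ∀ᶠ n in atTop, v n < limsup v atTop + ε / 2 :=
    eventually_lt_of_limsup_lt (by linarith only [hε]) hv
  have h2 : ∀ᶠ n in atTop, w n < ε / 2 := hw.eventually (gt_mem_nhds (by linarith only [hε]))
  filter_upwards [h, h1, h2] with n hn h1n h2n
  linarith only [hn, h1n, h2n]

end Basic

section Birkhoff

variable {X : Type*}

lemma birkhoffSum_bounds {T : X → X} {φ : X → ℝ} {C : ℝ}
    (h0 : ∀ x, 0 ≤ φ x) (hC : ∀ x, φ x ≤ C) (x : X) (n : ℕ) :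
    0 ≤ birkhoffSum T φ n x ∧ birkhoffSum T φ n x ≤ C * n := by
  unfold birkhoffSum
  constructor
  · exact Finset.sum_nonneg fun i _ => h0 _
  · calc ∑ k ∈ Finset.range n, φ (T^[k] x) ≤ ∑ _k ∈ Finset.range n, C :=
          Finset.sum_le_sum fun i _ => hC _
      _ = C * n := by simp only [Finset.sum_const, Finset.card_range, nsmul_eq_mul, mul_comm]

lemma limsup_birkhoff_comp {T : X → X} {φ : X → ℝ} {C : ℝ} (hC0 : 0 ≤ C)
    (h0 : ∀ x, 0 ≤ φ x) (hC : ∀ x, φ x ≤ C) (x : X) :
    limsup (fun n : ℕ => birkhoffSum T φ n (T x) / n) atTop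
      = limsup (fun n : ℕ => birkhoffSum T φ n x / n) atTop := by
  have hb := birkhoffSum_bounds (T := T) h0 hC
  have key : ∀ n : ℕ, birkhoffSum T φ n (T x)
      = birkhoffSum T φ n x + (φ (T^[n] x) - φ x) := by
    intro n
    have h1 := birkhoffSum_succ' T φ n x
    have h2 := birkhoffSum_succ T φ n x
    (clear * - h1 h2; linarith)
  have hw : Tendsto (fun n : ℕ => C / (n : ℝ)) atTop (𝓝 0) :=
    tendsto_const_div_atTop_nhds_zero_nat C
  apply le_antisymm
  · refine limsup_le_of_le_add (w := fun n : ℕ => C / (n : ℝ)) (Eventually.of_forall fun n => ?_) hw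
      (isCoboundedUnder_le_div hC0 (fun n => (hb _ n).1) (fun n => (hb _ n).2))
      (isBoundedUnder_le_div hC0 (fun n => (hb _ n).1) (fun n => (hb _ n).2))
    rw [key n, ← add_div]
    gcongr
    have := hC (T^[n] x); have := h0 x; linarith
  · refine limsup_le_of_le_add (w := fun n : ℕ => C / (n : ℝ)) (Eventually.of_forall fun n => ?_) hw
      (isCoboundedUnder_le_div hC0 (fun n => (hb _ n).1) (fun n => (hb _ n).2))
      (isBoundedUnder_le_div hC0 (fun n => (hb _ n).1) (fun n => (hb _ n).2))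
    rw [key n, ← add_div]
    gcongr
    have := h0 (T^[n] x); have := hC x; linarith

variable [MeasurableSpace X]

lemma integral_birkhoffSum {μ : Measure X} [IsFiniteMeasure μ] {T : X → X}
    (hT : MeasurePreserving T μ μ) {φ : X → ℝ} (hφ : Measurable φ) {C : ℝ}
    (h0 : ∀ x, 0 ≤ φ x) (hC : ∀ x, φ x ≤ C) (n : ℕ) :
    ∫ x, birkhoffSum T φ n x ∂μ = n * ∫ x, φ x ∂μ := by
  unfold birkhoffSum
  rw [integral_finsetSum]
  · have : ∀ k ∈ Finset.range n, ∫ x, φ (T^[k] x) ∂μ = ∫ x, φ x ∂μ := by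
      intro k _
      have hk := hT.iterate k
      conv_rhs => rw [← hk.map_eq]
      rw [integral_map hk.measurable.aemeasurable hφ.aestronglyMeasurable]
    rw [Finset.sum_congr rfl this]
    simp only [Finset.sum_const, Finset.card_range, nsmul_eq_mul]
  · intro k _
    refine Integrable.of_bound (C := C)
      (hφ.comp (hT.measurable.iterate k)).aestronglyMeasurable ?_
    refine Eventually.of_forall fun x => ?_
    rw [Real.norm_eq_abs, abs_of_nonneg (h0 _)]
    exact hC _

/-- For a bounded nonnegative function, the integral of the upper Birkhoff average is at most the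
integral of the function. -/
theorem integral_limsup_birkhoff_le {μ : Measure X} [IsProbabilityMeasure μ] {T : X → X}
    (hT : MeasurePreserving T μ μ) {φ : X → ℝ} (hφ : Measurable φ) {C : ℝ} (hC0 : 0 ≤ C)
    (h0 : ∀ x, 0 ≤ φ x) (hC : ∀ x, φ x ≤ C) :
    ∫ x, limsup (fun n : ℕ => birkhoffSum T φ n x / n) atTop ∂μ ≤ ∫ x, φ x ∂μ := by
  set B : X → ℝ := fun x => limsup (fun n : ℕ => birkhoffSum T φ n x / n) atTop with hB
  have hSb := birkhoffSum_bounds (T := T) h0 hC
  have hSmeas : ∀ n, Measurable (birkhoffSum T φ n) := by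
    intro n
    unfold birkhoffSum
    exact Finset.measurable_sum _ fun k _ => hφ.comp (hT.measurable.iterate k)
  have hBmeas : Measurable B := by
    refine Measurable.limsup (f := fun (n : ℕ) x => birkhoffSum T φ n x / n) fun n => ?_
    exact (hSmeas n).div_const _
  have hB0 : ∀ x, 0 ≤ B x := fun x =>
    limsup_div_nonneg hC0 (fun n => (hSb x n).1) (fun n => (hSb x n).2)
  have hBC : ∀ x, B x ≤ C := fun x =>
    limsup_div_le hC0 (fun n => (hSb x n).1) (fun n => (hSb x n).2)
  have hBT : ∀ x, B (T x) = B x := fun x => limsup_birkhoff_comp hC0 h0 hC x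
  have hint : ∀ {f : X → ℝ} (D : ℝ), Measurable f → (∀ x, 0 ≤ f x) → (∀ x, f x ≤ D) →
      Integrable f μ := by
    intro f D hf hf0 hfD
    refine Integrable.of_bound (C := D) hf.aestronglyMeasurable ?_
    refine Eventually.of_forall fun x => ?_
    rw [Real.norm_eq_abs, abs_of_nonneg (hf0 _)]
    exact hfD _
  -- it suffices to have the inequality up to a multiple of ε
  have main : ∀ ε : ℝ, 0 < ε → ∫ x, B x ∂μ ≤ ∫ x, φ x ∂μ + (C + 1) * ε := by
    intro ε hε
    set b : X → ℝ := fun x => max (B x - ε) 0 with hb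
    have hb0 : ∀ x, 0 ≤ b x := fun x => le_max_right _ _
    have hbC : ∀ x, b x ≤ C := fun x => max_le (by have := hBC x; linarith only [hε, this]) hC0
    have hbmeas : Measurable b := (hBmeas.sub_const ε).max measurable_const
    have hbT : ∀ x, b (T x) = b x := fun x => by simp only [hb, hBT x]
    have hbTn : ∀ n x, b (T^[n] x) = b x := by
      intro n
      induction n with
      | zero => intro x; rfl
      | succ n ih => intro x; rw [Function.iterate_succ_apply, ih, hbT]
    have hex : ∀ x, ∃ n : ℕ, 1 ≤ n ∧ n * b x ≤ birkhoffSum T φ n x := by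
      intro x
      rcases le_or_gt (B x - ε) 0 with hx | hx
      · refine ⟨1, le_rfl, ?_⟩
        have : b x = 0 := max_eq_right hx
        rw [this]
        simpa only [Nat.cast_one, mul_zero, birkhoffSum_one', ge_iff_le] using h0 x
      · have hbx : b x = B x - ε := max_eq_left hx.le
        have hfr : ∃ᶠ n : ℕ in atTop, B x - ε < birkhoffSum T φ n x / n :=
          frequently_lt_of_lt_limsup
            (isCoboundedUnder_le_div hC0 (fun n => (hSb x n).1) (fun n => (hSb x n).2))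
            (by simp only [hB]; linarith only [hε])
        obtain ⟨n, hn1, hn2⟩ := (hfr.and_eventually (eventually_ge_atTop 1)).exists
        refine ⟨n, hn2, ?_⟩
        have hnpos : (0 : ℝ) < n := by exact_mod_cast hn2
        rw [lt_div_iff₀ hnpos] at hn1
        rw [hbx]
        linarith only [hn1]
    let A : ℕ → Set X := fun M => {x | ∃ n : ℕ, n ≤ M ∧ 1 ≤ n ∧ n * b x ≤ birkhoffSum T φ n x}
    have hAmeas : ∀ M, MeasurableSet (A M) := by
      intro M
      have : A M = ⋃ n ∈ {n : ℕ | n ≤ M ∧ 1 ≤ n}, {x | n * b x ≤ birkhoffSum T φ n x} := by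
        ext x; simp only [mem_ofPred_eq, mem_iUnion, exists_prop, and_assoc, A]
      rw [this]
      refine MeasurableSet.biUnion (Set.to_countable _) fun n _ => ?_
      exact measurableSet_le (measurable_const.mul hbmeas) (hSmeas n)
    have hAc : Tendsto (fun M => μ (A M)ᶜ) atTop (𝓝 0) := by
      have hanti : Antitone fun M => (A M)ᶜ := by
        intro M N hMN
        refine compl_subset_compl.2 ?_
        rintro x ⟨n, h1, h2, h3⟩
        exact ⟨n, h1.trans hMN, h2, h3⟩
      have h := tendsto_measure_iInter_atTop (μ := μ) (s := fun M => (A M)ᶜ)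
        (fun M => (hAmeas M).compl.nullMeasurableSet) hanti ⟨0, measure_ne_top _ _⟩
      have hempty : (⋂ M, (A M)ᶜ) = ∅ := by
        rw [← compl_iUnion, compl_empty_iff, eq_univ_iff_forall]
        intro x
        obtain ⟨n, hn1, hn2⟩ := hex x
        exact mem_iUnion.2 ⟨n, n, le_rfl, hn1, hn2⟩
      rw [hempty, measure_empty] at h
      exact h
    have hAc' : ∃ M, μ.real (A M)ᶜ ≤ ε := by
      have h1 : ∀ᶠ M in atTop, μ (A M)ᶜ < ENNReal.ofReal ε :=
        hAc.eventually (gt_mem_nhds (by simpa using hε))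
      obtain ⟨M, hM⟩ := h1.exists
      refine ⟨M, ?_⟩
      rw [measureReal_def]
      exact ENNReal.toReal_le_of_le_ofReal hε.le hM.le
    obtain ⟨M, hM⟩ := hAc'
    set ψ : X → ℝ := fun x => φ x + (A M)ᶜ.indicator (fun _ => C) x with hψ
    have hψmeas : Measurable ψ := hφ.add (measurable_const.indicator (hAmeas M).compl)
    have hind0 : ∀ x, 0 ≤ (A M)ᶜ.indicator (fun _ => C) x := fun x =>
      indicator_nonneg (fun _ _ => hC0) x
    have hψ0 : ∀ x, 0 ≤ ψ x := fun x => add_nonneg (h0 x) (hind0 x)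
    have hindC : ∀ x, (A M)ᶜ.indicator (fun _ => C) x ≤ C := fun x => by
      by_cases hx : x ∈ (A M)ᶜ
      · rw [indicator_of_mem hx]
      · rw [indicator_of_notMem hx]; exact hC0
    have hψC : ∀ x, ψ x ≤ C + C := fun x => add_le_add (hC x) (hindC x)
    have hφψ : ∀ x, φ x ≤ ψ x := fun x => le_add_of_nonneg_right (hind0 x)
    have claim : ∀ (L : ℕ) (x : X), ((L : ℝ) - M) * b x ≤ birkhoffSum T ψ L x := by
      intro L
      induction L using Nat.strong_induction_on with
      | _ L ih =>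
        intro x
        rcases le_or_gt L M with hLM | hLM
        · have h1 : ((L : ℝ) - M) * b x ≤ 0 := by
            apply mul_nonpos_of_nonpos_of_nonneg _ (hb0 x)
            have : (L : ℝ) ≤ M := by exact_mod_cast hLM
            linarith only [this]
          exact h1.trans (birkhoffSum_bounds (T := T) hψ0 hψC x L).1
        · have step : ∀ n : ℕ, 1 ≤ n → n ≤ L → n * b x ≤ birkhoffSum T ψ n x →
              ((L : ℝ) - M) * b x ≤ birkhoffSum T ψ L x := by
            intro n hn1 hnL hn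
            have hsplit : birkhoffSum T ψ L x
                = birkhoffSum T ψ n x + birkhoffSum T ψ (L - n) (T^[n] x) := by
              conv_lhs => rw [show L = n + (L - n) by omega]
              exact birkhoffSum_add T ψ n (L - n) x
            have h2 := ih (L - n) (by omega) (T^[n] x)
            rw [hbTn, Nat.cast_sub hnL] at h2
            rw [hsplit]
            nlinarith only [h2, hn]
          by_cases hx : x ∈ A M
          · obtain ⟨n, hnM, hn1, hn⟩ := hx
            refine step n hn1 (hnM.trans hLM.le) (hn.trans ?_)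
            unfold birkhoffSum
            exact Finset.sum_le_sum fun i _ => hφψ _
          · refine step 1 le_rfl (by omega) ?_
            have h3 : ψ x = φ x + C := by
              simp only [hψ]
              rw [indicator_of_mem (show x ∈ (A M)ᶜ from hx)]
            have h4 := h0 x
            have h5 := hbC x
            have h6 : birkhoffSum T ψ 1 x = ψ x := by simp
            rw [h6, h3]
            push_cast
            linarith only [h4, h5]
    have hintb := hint C hbmeas hb0 hbC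
    have hineq : ∀ L : ℕ, ((L : ℝ) - M) * ∫ x, b x ∂μ ≤ L * ∫ x, ψ x ∂μ := by
      intro L
      rw [← integral_birkhoffSum hT hψmeas hψ0 hψC L, ← integral_const_mul]
      refine integral_mono (hintb.const_mul _) ?_ (fun x => claim L x)
      refine hint ((C + C) * L) ?_ (fun x => (birkhoffSum_bounds hψ0 hψC x L).1)
        (fun x => (birkhoffSum_bounds hψ0 hψC x L).2)
      unfold birkhoffSum
      exact Finset.measurable_sum _ fun k _ => hψmeas.comp (hT.measurable.iterate k)
    have hbψ : ∫ x, b x ∂μ ≤ ∫ x, ψ x ∂μ := by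
      by_contra hcon
      push Not at hcon
      set d := ∫ x, b x ∂μ - ∫ x, ψ x ∂μ with hd
      have hdpos : 0 < d := by simp only [hd]; linarith only [hcon]
      obtain ⟨L, hL⟩ := exists_nat_gt ((M * ∫ x, b x ∂μ) / d)
      rw [div_lt_iff₀ hdpos] at hL
      have := hineq L
      linarith
    have hψint : ∫ x, ψ x ∂μ ≤ ∫ x, φ x ∂μ + C * ε := by
      have h1 : ∫ x, ψ x ∂μ = ∫ x, φ x ∂μ + ∫ x, (A M)ᶜ.indicator (fun _ => C) x ∂μ := by
        simp only [hψ]
        exact integral_add (hint C hφ h0 hC)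
          (hint C (measurable_const.indicator (hAmeas M).compl) hind0 hindC)
      rw [h1, integral_indicator_const _ (hAmeas M).compl, smul_eq_mul]
      have := mul_le_mul_of_nonneg_right hM hC0
      linarith only [this]
    have hBb : ∫ x, B x ∂μ ≤ ∫ x, b x ∂μ + ε := by
      have h1 : ∫ x, B x ∂μ ≤ ∫ x, (b x + ε) ∂μ := by
        refine integral_mono (hint C hBmeas hB0 hBC) (hintb.add (integrable_const ε)) fun x => ?_
        have : B x - ε ≤ b x := le_max_left _ _
        show B x ≤ b x + ε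
        linarith only [this]
      rw [integral_add hintb (integrable_const ε)] at h1
      simpa only [ge_iff_le, integral_const, probReal_univ, smul_eq_mul, one_mul] using h1
    linarith only [hbψ, hψint, hBb]
  have hlim : Tendsto (fun ε : ℝ => ∫ x, φ x ∂μ + (C + 1) * ε) (𝓝[>] 0)
      (𝓝 (∫ x, φ x ∂μ + (C + 1) * 0)) := by
    apply Tendsto.mono_left _ nhdsWithin_le_nhds
    exact (continuous_const.add (continuous_const.mul continuous_id)).tendsto 0
  rw [mul_zero, add_zero] at hlim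
  exact ge_of_tendsto hlim (eventually_nhdsWithin_of_forall fun ε hε => main ε hε)

end Birkhoff

section Subadditive

variable {X : Type*}

/-- A bounded nonnegative subadditive cocycle over `T`. -/
structure SubCocycle (T : X → X) (g : ℕ → X → ℝ) (C : ℝ) : Prop where
  C0 : 0 ≤ C
  nonneg : ∀ n x, 0 ≤ g n x
  bound : ∀ n x, g n x ≤ C * n
  sub : ∀ m n x, g (m + n) x ≤ g m x + g n (T^[m] x)

lemma SubCocycle.mul_le {T : X → X} {g : ℕ → X → ℝ} {C : ℝ} (h : SubCocycle T g C)
    (m q : ℕ) (x : X) : g (q * m) x ≤ birkhoffSum T^[m] (g m) q x := by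
  induction q generalizing x with
  | zero => simpa only [zero_mul, birkhoffSum_zero', Pi.zero_apply, CharP.cast_eq_zero, mul_zero] using h.bound 0 x
  | succ q ih =>
    rw [birkhoffSum_succ', show (q + 1) * m = m + q * m by ring]
    exact (h.sub m (q * m) x).trans (add_le_add le_rfl (ih _))

lemma SubCocycle.limsup_le {T : X → X} {g : ℕ → X → ℝ} {C : ℝ} (h : SubCocycle T g C)
    {m : ℕ} (hm : 1 ≤ m) (x : X) :
    limsup (fun n : ℕ => g n x / n) atTop
      ≤ limsup (fun q : ℕ => birkhoffSum T^[m] (g m) q x / q) atTop / m := by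
  have hmpos : (0 : ℝ) < m := by exact_mod_cast hm
  have hS := birkhoffSum_bounds (T := T^[m]) (h.nonneg m) (h.bound m)
  have hCm : 0 ≤ C * m := mul_nonneg h.C0 hmpos.le
  set Λ := limsup (fun q : ℕ => birkhoffSum T^[m] (g m) q x / q) atTop with hΛ
  refine le_of_forall_pos_le_add fun ε hε => ?_
  refine limsup_le_of_le
    (isCoboundedUnder_le_div h.C0 (fun n => h.nonneg n x) (fun n => h.bound n x)) ?_
  have h1 : ∀ᶠ q : ℕ in atTop, birkhoffSum T^[m] (g m) q x / q < Λ + ε * m / 2 := by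
    refine eventually_lt_of_limsup_lt ?_
      (isBoundedUnder_le_div hCm (fun n => (hS x n).1) (fun n => (hS x n).2))
    have : 0 < ε * m / 2 := by positivity
    simp only [← hΛ]; linarith only [this]
  have h2 : ∀ᶠ n : ℕ in atTop,
      birkhoffSum T^[m] (g m) (n / m) x / ((n / m : ℕ) : ℝ) < Λ + ε * m / 2 :=
    (Nat.tendsto_div_const_atTop (by omega : m ≠ 0)).eventually h1
  have h3 : ∀ᶠ n : ℕ in atTop, C * m / (n : ℝ) < ε / 2 :=
    (tendsto_const_div_atTop_nhds_zero_nat (C * m)).eventually (gt_mem_nhds (by linarith only [hε]))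
  filter_upwards [h2, h3, eventually_ge_atTop m] with n hn2 hn3 hnm
  set q := n / m with hq
  have hqpos : 0 < q := Nat.div_pos hnm (by omega)
  have hqR : (0 : ℝ) < q := by exact_mod_cast hqpos
  have hnR : (0 : ℝ) < n := by
    have : 0 < n := by omega
    exact_mod_cast this
  have hdecomp : n = q * m + n % m := by
    rw [hq, mul_comm]; exact (Nat.div_add_mod n m).symm
  have hr : n % m < m := Nat.mod_lt _ (by omega)
  have hg : g n x ≤ birkhoffSum T^[m] (g m) q x + C * m := by
    have h4 : g n x ≤ g (q * m) x + g (n % m) (T^[q * m] x) := by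
      conv_lhs => rw [hdecomp]
      exact h.sub _ _ _
    have h5 := h.mul_le m q x
    have h6 := h.bound (n % m) (T^[q * m] x)
    have h7 : C * ((n % m : ℕ) : ℝ) ≤ C * m := by
      apply mul_le_mul_of_nonneg_left _ h.C0
      exact_mod_cast hr.le
    linarith only [h4, h5, h6, h7]
  have hS0 := (hS x q).1
  have hnq : (q : ℝ) * m ≤ n := by
    have : q * m ≤ n := by omega
    exact_mod_cast this
  calc g n x / n ≤ (birkhoffSum T^[m] (g m) q x + C * m) / n := by (clear * - hg hnR; gcongr)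
    _ = birkhoffSum T^[m] (g m) q x / n + C * m / n := add_div _ _ _
    _ ≤ birkhoffSum T^[m] (g m) q x / (q * m) + C * m / n := by (clear * - hS0 hqpos hm hnq; gcongr)
    _ = (birkhoffSum T^[m] (g m) q x / q) / m + C * m / n := by rw [div_div]
    _ ≤ (Λ + ε * m / 2) / m + ε / 2 := by (clear * - hn2 hm hn3; gcongr)
    _ = Λ / m + ε := by field_simp; ring

variable [MeasurableSpace X]

lemma SubCocycle.integrable {T : X → X} {g : ℕ → X → ℝ} {C : ℝ} (h : SubCocycle T g C)
    {μ : Measure X} [IsFiniteMeasure μ] (hg : ∀ n, Measurable (g n)) (n : ℕ) :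
    Integrable (g n) μ := by
  refine Integrable.of_bound (C := C * n) (hg n).aestronglyMeasurable ?_
  refine Eventually.of_forall fun x => ?_
  rw [Real.norm_eq_abs, abs_of_nonneg (h.nonneg _ _)]
  exact h.bound _ _

lemma SubCocycle.measurable_limsup {T : X → X} {g : ℕ → X → ℝ} {C : ℝ} (_h : SubCocycle T g C)
    (hg : ∀ n, Measurable (g n)) :
    Measurable fun x => limsup (fun n : ℕ => g n x / n) atTop :=
  Measurable.limsup (f := fun (n : ℕ) x => g n x / n) fun n => (hg n).div_const _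

omit [MeasurableSpace X] in
lemma SubCocycle.limsup_nonneg {T : X → X} {g : ℕ → X → ℝ} {C : ℝ} (h : SubCocycle T g C)
    (x : X) : 0 ≤ limsup (fun n : ℕ => g n x / n) atTop :=
  limsup_div_nonneg h.C0 (fun n => h.nonneg n x) (fun n => h.bound n x)

omit [MeasurableSpace X] in
lemma SubCocycle.limsup_le_C {T : X → X} {g : ℕ → X → ℝ} {C : ℝ} (h : SubCocycle T g C)
    (x : X) : limsup (fun n : ℕ => g n x / n) atTop ≤ C :=
  limsup_div_le h.C0 (fun n => h.nonneg n x) (fun n => h.bound n x)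

lemma SubCocycle.integrable_limsup {T : X → X} {g : ℕ → X → ℝ} {C : ℝ} (h : SubCocycle T g C)
    {μ : Measure X} [IsFiniteMeasure μ] (hg : ∀ n, Measurable (g n)) :
    Integrable (fun x => limsup (fun n : ℕ => g n x / n) atTop) μ := by
  refine Integrable.of_bound (C := C) (h.measurable_limsup hg).aestronglyMeasurable ?_
  refine Eventually.of_forall fun x => ?_
  rw [Real.norm_eq_abs, abs_of_nonneg (h.limsup_nonneg x)]
  exact h.limsup_le_C x

/-- Upper bound in the subadditive ergodic theorem. -/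
theorem SubCocycle.integral_limsup_le {T : X → X} {g : ℕ → X → ℝ} {C : ℝ}
    (h : SubCocycle T g C) {μ : Measure X} [IsProbabilityMeasure μ]
    (hT : MeasurePreserving T μ μ) (hg : ∀ n, Measurable (g n)) {m : ℕ} (hm : 1 ≤ m) :
    ∫ x, limsup (fun n : ℕ => g n x / n) atTop ∂μ ≤ (∫ x, g m x ∂μ) / m := by
  have hmpos : (0 : ℝ) < m := by exact_mod_cast hm
  have hCm : 0 ≤ C * m := mul_nonneg h.C0 hmpos.le
  have hS := birkhoffSum_bounds (T := T^[m]) (h.nonneg m) (h.bound m)
  have hSmeas : ∀ n, Measurable (birkhoffSum T^[m] (g m) n) := by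
    intro n
    unfold birkhoffSum
    exact Finset.measurable_sum _ fun k _ =>
      (hg m).comp ((hT.measurable.iterate m).iterate k)
  have hBmeas : Measurable fun x =>
      limsup (fun q : ℕ => birkhoffSum T^[m] (g m) q x / q) atTop :=
    Measurable.limsup (f := fun (n : ℕ) x => birkhoffSum T^[m] (g m) n x / n)
      fun n => (hSmeas n).div_const _
  have h1 := integral_limsup_birkhoff_le (hT.iterate m) (hg m) hCm (h.nonneg m) (h.bound m)
  have hint : Integrable (fun x =>
      limsup (fun q : ℕ => birkhoffSum T^[m] (g m) q x / q) atTop) μ := by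
    refine Integrable.of_bound (C := C * m) hBmeas.aestronglyMeasurable ?_
    refine Eventually.of_forall fun x => ?_
    rw [Real.norm_eq_abs, abs_of_nonneg
      (limsup_div_nonneg hCm (fun n => (hS x n).1) (fun n => (hS x n).2))]
    exact limsup_div_le hCm (fun n => (hS x n).1) (fun n => (hS x n).2)
  calc ∫ x, limsup (fun n : ℕ => g n x / n) atTop ∂μ
      ≤ ∫ x, limsup (fun q : ℕ => birkhoffSum T^[m] (g m) q x / q) atTop / m ∂μ :=
        integral_mono (h.integrable_limsup hg) (hint.div_const _) (fun x => h.limsup_le hm x)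
    _ = (∫ x, limsup (fun q : ℕ => birkhoffSum T^[m] (g m) q x / q) atTop ∂μ) / m :=
        integral_div _ _
    _ ≤ (∫ x, g m x ∂μ) / m := by (clear * - h1 hm; gcongr)

/-- The normalized integrals converge to the integral of the upper limit (a weak form of the
subadditive ergodic theorem; only the boundedness is used here). -/
theorem SubCocycle.tendsto_integral {T : X → X} {g : ℕ → X → ℝ} {C : ℝ}
    (h : SubCocycle T g C) {μ : Measure X} [IsProbabilityMeasure μ]
    (hT : MeasurePreserving T μ μ) (hg : ∀ n, Measurable (g n)) :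
    Tendsto (fun n : ℕ => (∫ x, g n x ∂μ) / n) atTop
      (𝓝 (∫ x, limsup (fun n : ℕ => g n x / n) atTop ∂μ)) := by
  set L : X → ℝ := fun x => limsup (fun n : ℕ => g n x / n) atTop with hL
  -- the tails
  set H : ℕ → X → ℝ := fun N x => ⨆ j : ℕ, g (N + j) x / ((N + j : ℕ) : ℝ) with hH
  have hbd : ∀ (N : ℕ) (x : X), BddAbove (range fun j : ℕ => g (N + j) x / ((N + j : ℕ) : ℝ)) := by
    intro N x
    refine ⟨C, ?_⟩
    rintro _ ⟨j, rfl⟩
    exact (bdd_div h.C0 (fun n => h.nonneg n x) (fun n => h.bound n x) (N + j)).2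
  have hH0 : ∀ N x, 0 ≤ H N x := fun N x =>
    Real.iSup_nonneg fun j =>
      (bdd_div h.C0 (fun n => h.nonneg n x) (fun n => h.bound n x) (N + j)).1
  have hHC : ∀ N x, H N x ≤ C := fun N x =>
    ciSup_le fun j => (bdd_div h.C0 (fun n => h.nonneg n x) (fun n => h.bound n x) (N + j)).2
  have hHmeas : ∀ N, Measurable (H N) := fun N =>
    Measurable.iSup fun j => (hg (N + j)).div_const _
  have hHL : ∀ x, Tendsto (fun N => H N x) atTop (𝓝 (L x)) := by
    intro x
    rw [Metric.tendsto_atTop]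
    intro ε hε
    have h1 : ∀ᶠ n : ℕ in atTop, g n x / n < L x + ε / 2 :=
      eventually_lt_of_limsup_lt (by simp only [hL]; linarith only [hε])
        (isBoundedUnder_le_div h.C0 (fun n => h.nonneg n x) (fun n => h.bound n x))
    obtain ⟨N0, hN0⟩ := eventually_atTop.1 h1
    refine ⟨N0, fun N hN => ?_⟩
    have hle : H N x ≤ L x + ε / 2 := ciSup_le fun j => (hN0 (N + j) (by omega)).le
    have hge : L x ≤ H N x := by
      refine limsup_le_of_le
        (isCoboundedUnder_le_div h.C0 (fun n => h.nonneg n x) (fun n => h.bound n x)) ?_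
      filter_upwards [eventually_ge_atTop N] with n hn
      have := le_ciSup (hbd N x) (n - N)
      simp only [Nat.add_sub_cancel' hn] at this
      exact this
    rw [Real.dist_eq, abs_of_nonneg (by linarith only [hge])]
    linarith only [hε, hle]
  have hlim : Tendsto (fun N => ∫ x, H N x ∂μ) atTop (𝓝 (∫ x, L x ∂μ)) := by
    refine tendsto_integral_of_dominated_convergence (fun _ => C)
      (fun N => (hHmeas N).aestronglyMeasurable) (integrable_const C) (fun N => ?_)
      (Eventually.of_forall hHL)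
    refine Eventually.of_forall fun x => ?_
    rw [Real.norm_eq_abs, abs_of_nonneg (hH0 N x)]
    exact hHC N x
  refine tendsto_of_tendsto_of_tendsto_of_le_of_le' tendsto_const_nhds hlim ?_ ?_
  · filter_upwards [eventually_ge_atTop 1] with n hn
    exact h.integral_limsup_le hT hg hn
  · filter_upwards [eventually_ge_atTop 1] with n hn
    rw [← integral_div]
    refine integral_mono ((h.integrable hg n).div_const _) ?_ fun x => ?_
    · refine Integrable.of_bound (C := C) (hHmeas n).aestronglyMeasurable ?_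
      refine Eventually.of_forall fun x => ?_
      rw [Real.norm_eq_abs, abs_of_nonneg (hH0 n x)]
      exact hHC n x
    · exact le_ciSup (hbd n x) 0

end Subadditive

end Vale.Agent.P108
end
end
end

section

section

section

open MeasureTheory Filter Set Topology

namespace Vale.Agent.P108.FT

/-- the trace-like entry of the cocycle -/
noncomputable def a (k x : ℝ) : ℝ := 2 + 2 * Real.pi * k * Real.cos (2 * Real.pi * x)

lemma circleMap_zero_one (θ : ℝ) : circleMap 0 1 θ = Complex.exp (θ * Complex.I) := by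
  simp [circleMap]

lemma log_a_eq {k : ℝ} (hk : 1 ≤ Real.pi * |k|) {α : ℂ} (h1 : ‖α‖ = 1)
    (h : α + α⁻¹ = -((2 / (Real.pi * k) : ℝ) : ℂ)) (θ : ℝ)
    (hne1 : circleMap 0 1 θ ≠ α) (hne2 : circleMap 0 1 θ ≠ α⁻¹) :
    Real.log |2 + 2 * Real.pi * k * Real.cos θ| =
      Real.log (Real.pi * |k|) + Real.log ‖circleMap 0 1 θ - α‖
        + Real.log ‖circleMap 0 1 θ - α⁻¹‖ := by
  have hπ := Real.pi_pos
  have hk0 : k ≠ 0 := by
    rintro rfl
    simp only [abs_zero, mul_zero] at hk
    linarith only [hk]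
  have hα0 : α ≠ 0 := by
    rintro rfl
    simp at h1
  set z := circleMap 0 1 θ with hz
  have hz1 : ‖z‖ = 1 := by simp [hz, circleMap_zero_one, Complex.norm_exp_ofReal_mul_I]
  have hz0 : z ≠ 0 := by intro h; rw [h] at hz1; simp at hz1
  have hzinv : z + z⁻¹ = ((2 * Real.cos θ : ℝ) : ℂ) := by
    rw [hz, circleMap_zero_one, ← Complex.exp_neg]
    push_cast
    rw [Complex.cos, neg_mul]
    ring
  have hprod : (z - α) * (z - α⁻¹) = z * (((2 / (Real.pi * k) : ℝ) : ℂ) + (z + z⁻¹)) := by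
    have e1 : (z - α) * (z - α⁻¹) = z ^ 2 - (α + α⁻¹) * z + α * α⁻¹ := by ring
    rw [e1, h, mul_inv_cancel₀ hα0]
    have e2 : z * (((2 / (Real.pi * k) : ℝ) : ℂ) + (z + z⁻¹))
        = ((2 / (Real.pi * k) : ℝ) : ℂ) * z + z ^ 2 + z * z⁻¹ := by ring
    rw [e2, mul_inv_cancel₀ hz0]; ring
  have hn : ‖z - α‖ * ‖z - α⁻¹‖ = |2 / (Real.pi * k) + 2 * Real.cos θ| := by
    rw [← norm_mul, hprod, norm_mul, hz1, one_mul, hzinv, ← Complex.ofReal_add,
      Complex.norm_real, Real.norm_eq_abs]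
  have hne1' : ‖z - α‖ ≠ 0 := norm_ne_zero_iff.2 (sub_ne_zero.2 hne1)
  have hne2' : ‖z - α⁻¹‖ ≠ 0 := norm_ne_zero_iff.2 (sub_ne_zero.2 hne2)
  have hπk : 0 < Real.pi * |k| := by (clear * - hk0; positivity)
  rw [add_assoc, ← Real.log_mul hne1' hne2', ← Real.log_mul hπk.ne' (mul_ne_zero hne1' hne2'), hn]
  congr 1
  rw [← abs_of_pos hπ, ← abs_mul, ← abs_mul, abs_of_pos hπ]
  congr 1
  (clear * - hk0; field_simp)

lemma integral_log_theta {k : ℝ} (hk : 1 ≤ Real.pi * |k|) :
    (2 * Real.pi)⁻¹ * ∫ θ in (0:ℝ)..(2 * Real.pi), Real.log |2 + 2 * Real.pi * k * Real.cos θ| =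
      Real.log (Real.pi * |k|) := by
  have hπ := Real.pi_pos
  have hk0 : k ≠ 0 := by
    rintro rfl
    simp only [abs_zero, mul_zero] at hk
    linarith
  set t : ℝ := 1 / (Real.pi * k) with ht
  have htabs : |t| ≤ 1 := by
    rw [ht, abs_div, abs_one, abs_mul, abs_of_pos hπ]
    exact (div_le_one (by positivity)).2 hk
  have ht2 : t ^ 2 ≤ 1 := by
    rw [← sq_abs]; nlinarith only [htabs, abs_nonneg t]
  set α : ℂ := ⟨-t, √(1 - t ^ 2)⟩ with hα
  have hns : Complex.normSq α = 1 := by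
    rw [hα, Complex.normSq_mk]
    have := Real.mul_self_sqrt (show 0 ≤ 1 - t ^ 2 by linarith only [ht2])
    linarith
  have hα1 : ‖α‖ = 1 := by
    have h1 : ‖α‖ ^ 2 = 1 := by rw [← Complex.normSq_eq_norm_sq]; exact hns
    have h2 := norm_nonneg α
    nlinarith only [h1, h2]
  have hinv : α⁻¹ = (starRingEnd ℂ) α := by
    rw [Complex.inv_def, hns]; simp
  have hsum : α + α⁻¹ = -((2 / (Real.pi * k) : ℝ) : ℂ) := by
    rw [hinv, Complex.add_conj]
    simp only [hα, ht]
    rw [← Complex.ofReal_neg]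
    congr 1
    ring
  have hinv1 : ‖α⁻¹‖ = 1 := by rw [norm_inv, hα1, inv_one]
  have hae : ∀ᵐ θ : ℝ, Real.log |2 + 2 * Real.pi * k * Real.cos θ| =
      Real.log (Real.pi * |k|) + Real.log ‖circleMap 0 1 θ - α‖
        + Real.log ‖circleMap 0 1 θ - α⁻¹‖ := by
    have hc : ({α, α⁻¹} : Set ℂ).Countable := (Set.toFinite _).countable
    have hc2 : (circleMap 0 1 ⁻¹' ({α, α⁻¹} : Set ℂ)).Countable :=
      hc.preimage_circleMap 0 one_ne_zero
    have hz : ∀ᵐ θ : ℝ, θ ∉ circleMap 0 1 ⁻¹' ({α, α⁻¹} : Set ℂ) :=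
      measure_eq_zero_iff_ae_notMem.1 (hc2.measure_zero _)
    filter_upwards [hz] with θ hθ
    simp only [mem_preimage, mem_insert_iff, mem_singleton_iff, not_or] at hθ
    exact log_a_eq hk hα1 hsum θ hθ.1 hθ.2
  rw [intervalIntegral.integral_congr_ae (g := fun θ => Real.log (Real.pi * |k|)
    + Real.log ‖circleMap 0 1 θ - α‖ + Real.log ‖circleMap 0 1 θ - α⁻¹‖)
    (hae.mono fun θ hθ _ => hθ)]
  have i1 : IntervalIntegrable (fun θ => Real.log ‖circleMap 0 1 θ - α‖) volume 0 (2 * Real.pi) :=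
    circleIntegrable_log_norm_sub_const (a := α) (c := 0) 1
  have i2 : IntervalIntegrable (fun θ => Real.log ‖circleMap 0 1 θ - α⁻¹‖) volume 0
      (2 * Real.pi) :=
    circleIntegrable_log_norm_sub_const (a := α⁻¹) (c := 0) 1
  rw [intervalIntegral.integral_add (by
    exact (intervalIntegrable_const).add i1) i2,
    intervalIntegral.integral_add intervalIntegrable_const i1]
  have a1 : (2 * Real.pi)⁻¹ * ∫ θ in (0:ℝ)..(2 * Real.pi), Real.log ‖circleMap 0 1 θ - α‖ = 0 := by
    have := circleAverage_log_norm_sub_const_eq_posLog (a := α)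
    rw [Real.circleAverage, smul_eq_mul] at this
    refine this.trans ?_
    rw [Real.posLog_eq_zero_iff, abs_of_nonneg (norm_nonneg _)]
    exact hα1.le
  have a2 : (2 * Real.pi)⁻¹ * ∫ θ in (0:ℝ)..(2 * Real.pi), Real.log ‖circleMap 0 1 θ - α⁻¹‖
      = 0 := by
    have := circleAverage_log_norm_sub_const_eq_posLog (a := α⁻¹)
    rw [Real.circleAverage, smul_eq_mul] at this
    refine this.trans ?_
    rw [Real.posLog_eq_zero_iff, abs_of_nonneg (norm_nonneg _)]
    exact hinv1.le
  rw [mul_add, mul_add, a1, a2]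
  simp only [intervalIntegral.integral_const, sub_zero, smul_eq_mul, add_zero]
  rw [← mul_assoc, inv_mul_cancel₀ (by positivity), one_mul]

/-- The mean of `log |a|` is exactly `log (π |k|)`. -/
theorem integral_log_abs_a {k : ℝ} (hk : 1 ≤ Real.pi * |k|) :
    ∫ x in (0:ℝ)..1, Real.log |a k x| = Real.log (Real.pi * |k|) := by
  rw [← integral_log_theta hk]
  have hπ := Real.pi_pos
  have := intervalIntegral.integral_comp_mul_left (a := 0) (b := 1)
    (f := fun θ => Real.log |2 + 2 * Real.pi * k * Real.cos θ|) (c := 2 * Real.pi) (by positivity)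
  simp only [mul_zero, mul_one, smul_eq_mul] at this
  exact this

/-- `log |a|` is interval integrable. -/
theorem intervalIntegrable_log_abs_a (k : ℝ) :
    IntervalIntegrable (fun x => Real.log |a k x|) volume 0 1 := by
  have h : MeromorphicOn (fun x : ℝ => a k x) (uIcc 0 1) := by
    intro x _
    apply AnalyticAt.meromorphicAt
    unfold a
    fun_prop
  have h2 := h.intervalIntegrable_log_norm
  simpa only [Real.log_abs, Real.norm_eq_abs] using h2

end Vale.Agent.P108.FT
end
end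
end

section

section

section

open MeasureTheory Filter Set Topology

namespace Vale.Agent.P108

/-- The standard map on the unit square. -/
noncomputable def T (k : ℝ) (z : ℝ × ℝ) : ℝ × ℝ := (Int.fract (F k z).1, Int.fract (F k z).2)

/-- normalized area on the unit square -/
noncomputable def mQ : Measure (ℝ × ℝ) := volume.restrict Q

lemma mQ_eq : mQ = (volume.restrict (Ico (0 : ℝ) 1)).prod (volume.restrict (Ico (0 : ℝ) 1)) := by
  unfold mQ Q
  rw [Measure.volume_eq_prod, Measure.prod_restrict]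

instance : IsProbabilityMeasure (volume.restrict (Ico (0 : ℝ) 1)) :=
  ⟨by simp⟩

instance : IsProbabilityMeasure mQ := by
  rw [mQ_eq]; infer_instance

lemma restrict_Ico_Ioc :
    (volume.restrict (Ico (0 : ℝ) 1)) = volume.restrict (Ioc (0 : ℝ) (0 + 1)) := by
  rw [zero_add]
  exact Measure.restrict_congr_set Ico_ae_eq_Ioc

lemma mp_mk : MeasurePreserving ((↑) : ℝ → UnitAddCircle) (volume.restrict (Ico (0 : ℝ) 1))
    volume := by
  rw [restrict_Ico_Ioc]
  exact UnitAddCircle.measurePreserving_mk 0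

/-- the section of the circle -/
noncomputable def sec (x : UnitAddCircle) : ℝ := (AddCircle.equivIco 1 0 x : ℝ)

lemma sec_mk (x : ℝ) : sec (x : UnitAddCircle) = Int.fract x := by
  unfold sec
  rw [AddCircle.coe_equivIco_mk_apply]
  simp

lemma measurable_sec : Measurable sec :=
  measurable_subtype_coe.comp (AddCircle.measurableEquivIco 1 0).measurable

lemma mp_sec : MeasurePreserving sec volume (volume.restrict (Ico (0 : ℝ) 1)) := by
  refine ⟨measurable_sec, ?_⟩
  rw [← mp_mk.map_eq, Measure.map_map measurable_sec mp_mk.measurable]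
  have : (sec ∘ ((↑) : ℝ → UnitAddCircle)) =ᵐ[volume.restrict (Ico (0 : ℝ) 1)] id := by
    refine (ae_restrict_iff' measurableSet_Ico).2 (Eventually.of_forall fun x hx => ?_)
    simp only [Function.comp, sec_mk, id]
    exact Int.fract_eq_self.2 hx
  rw [Measure.map_congr this, Measure.map_id]

lemma mp_fract_add (c : ℝ) : MeasurePreserving (fun y : ℝ => Int.fract (y + c))
    (volume.restrict (Ico (0 : ℝ) 1)) (volume.restrict (Ico (0 : ℝ) 1)) := by
  have h := mp_sec.comp ((measurePreserving_add_right volume (c : UnitAddCircle)).comp mp_mk)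
  have heq : (sec ∘ (fun x : UnitAddCircle => x + (c : UnitAddCircle)) ∘ ((↑) : ℝ → UnitAddCircle))
      = fun y : ℝ => Int.fract (y + c) := by
    ext y
    simp only [Function.comp]
    rw [← AddCircle.coe_add, sec_mk]
  rwa [heq] at h

lemma fract_fract_add (a b : ℝ) : Int.fract (a + Int.fract b) = Int.fract (a + b) := by
  have : a + Int.fract b = (a + b) - (⌊b⌋ : ℤ) := by
    unfold Int.fract; ring
  rw [this, Int.fract_sub_intCast]

lemma mp_T (k : ℝ) : MeasurePreserving (T k) mQ mQ := by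
  rw [mQ_eq]
  set ν := volume.restrict (Ico (0 : ℝ) 1)
  -- the vertical shear
  have hS : MeasurePreserving
      (fun p : ℝ × ℝ => (p.1, Int.fract (p.2 + k * Real.sin (2 * Real.pi * p.1))))
      (ν.prod ν) (ν.prod ν) := by
    refine MeasurePreserving.skew_product (f := id)
      (g := fun x y => Int.fract (y + k * Real.sin (2 * Real.pi * x)))
      (MeasurePreserving.id ν) ?_ (Eventually.of_forall fun x => (mp_fract_add _).map_eq)
    unfold Function.uncurry
    fun_prop
  have hH' : MeasurePreserving (fun p : ℝ × ℝ => (p.1, Int.fract (p.2 + p.1)))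
      (ν.prod ν) (ν.prod ν) := by
    refine MeasurePreserving.skew_product (f := id) (g := fun x y => Int.fract (y + x))
      (MeasurePreserving.id ν) ?_ (Eventually.of_forall fun x => (mp_fract_add _).map_eq)
    unfold Function.uncurry
    fun_prop
  have hsw : MeasurePreserving (Prod.swap : ℝ × ℝ → ℝ × ℝ) (ν.prod ν) (ν.prod ν) :=
    Measure.measurePreserving_swap
  have h := (hsw.comp (hH'.comp hsw)).comp hS
  have heq : ((Prod.swap ∘ (fun p : ℝ × ℝ => (p.1, Int.fract (p.2 + p.1))) ∘ Prod.swap) ∘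
      fun p : ℝ × ℝ => (p.1, Int.fract (p.2 + k * Real.sin (2 * Real.pi * p.1)))) = T k := by
    ext p
    · simp only [Function.comp, Prod.swap, T, F]
      rw [fract_fract_add]
      congr 1; ring
    · simp only [Function.comp, Prod.swap, T, F]
  rwa [heq] at h

/-- integer points of the plane -/
def ip (a b : ℤ) : ℝ × ℝ := ((a : ℝ), (b : ℝ))

lemma F_add_ip (k : ℝ) (z : ℝ × ℝ) (a b : ℤ) : F k (z + ip a b) = F k z + ip (a + b) b := by
  have hs : Real.sin (2 * Real.pi * (z.1 + a)) = Real.sin (2 * Real.pi * z.1) := by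
    rw [show 2 * Real.pi * (z.1 + a) = 2 * Real.pi * z.1 + a * (2 * Real.pi) by ring]
    exact Real.sin_add_int_mul_two_pi _ _
  unfold F ip
  ext
  · simp only [Prod.fst_add, Prod.snd_add, hs]
    push_cast; ring
  · simp only [Prod.fst_add, Prod.snd_add, hs]
    ring

lemma F_iter_add_ip' (k : ℝ) (n : ℕ) (a b : ℤ) :
    ∃ c : ℤ, ∀ z : ℝ × ℝ, (F k)^[n] (z + ip a b) = (F k)^[n] z + ip c b := by
  induction n generalizing a with
  | zero => exact ⟨a, fun z => rfl⟩
  | succ n ih =>
    obtain ⟨c, hc⟩ := ih (a + b)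
    exact ⟨c, fun z => by
      rw [Function.iterate_succ_apply, F_add_ip, hc, Function.iterate_succ_apply]⟩

lemma fderiv_iter_add_ip (k : ℝ) (n : ℕ) (z : ℝ × ℝ) (a b : ℤ) :
    fderiv ℝ (F k)^[n] (z + ip a b) = fderiv ℝ (F k)^[n] z := by
  obtain ⟨c, hc⟩ := F_iter_add_ip' k n a b
  have h1 : (fun w => (F k)^[n] (w + ip a b)) = fun w => (F k)^[n] w + ip c b := by
    ext1 w; exact hc w
  have h2 := congrArg (fun f => fderiv ℝ f z) h1
  simp only [fderiv_add_const] at h2
  rw [fderiv_comp_add_right] at h2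
  exact h2

lemma T_eq (k : ℝ) (z : ℝ × ℝ) : ∃ a b : ℤ, F k z = T k z + ip a b := by
  refine ⟨⌊(F k z).1⌋, ⌊(F k z).2⌋, ?_⟩
  unfold T ip
  ext
  · simp
  · simp

lemma T_iter_eq (k : ℝ) (n : ℕ) (z : ℝ × ℝ) : ∃ a b : ℤ, (F k)^[n] z = (T k)^[n] z + ip a b := by
  induction n with
  | zero => exact ⟨0, 0, by simp [ip]⟩
  | succ n ih =>
    obtain ⟨a, b, hab⟩ := ih
    obtain ⟨c, d, hcd⟩ := T_eq k ((T k)^[n] z)
    refine ⟨a + b + c, b + d, ?_⟩
    rw [Function.iterate_succ_apply', Function.iterate_succ_apply', hab, F_add_ip, hcd]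
    unfold ip
    ext
    · simp only [Prod.fst_add]; push_cast; ring
    · simp only [Prod.snd_add]; push_cast; ring

end Vale.Agent.P108
end
end
end

section

section

section

open MeasureTheory Filter Set Topology

namespace Vale.Agent.P108

/-! ### Smoothness -/

lemma contDiff_F : ContDiff ℝ ⊤ (fun p : ℝ × (ℝ × ℝ) => F p.1 p.2) := by
  unfold F
  have h1 : ContDiff ℝ ⊤ (fun p : ℝ × (ℝ × ℝ) => p.2.1) := contDiff_fst.comp contDiff_snd
  have h2 : ContDiff ℝ ⊤ (fun p : ℝ × (ℝ × ℝ) => p.2.2) := contDiff_snd.comp contDiff_snd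
  have h3 : ContDiff ℝ ⊤ (fun p : ℝ × (ℝ × ℝ) => p.1 * Real.sin (2 * Real.pi * p.2.1)) :=
    contDiff_fst.mul (Real.contDiff_sin.comp (contDiff_const.mul h1))
  exact ((h1.add h2).add h3).prodMk (h2.add h3)

lemma contDiff_F_iter (n : ℕ) :
    ContDiff ℝ ⊤ (fun p : ℝ × (ℝ × ℝ) => (F p.1)^[n] p.2) := by
  induction n with
  | zero => exact contDiff_snd
  | succ n ih =>
    have : (fun p : ℝ × (ℝ × ℝ) => (F p.1)^[n + 1] p.2)
        = (fun q : ℝ × (ℝ × ℝ) => F q.1 q.2) ∘ fun p => (p.1, (F p.1)^[n] p.2) := by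
      ext1 p; simp only [Function.comp, Function.iterate_succ_apply']
    rw [this]
    exact contDiff_F.comp (contDiff_fst.prodMk ih)

lemma contDiff_F_iter_z (k : ℝ) (n : ℕ) : ContDiff ℝ ⊤ ((F k)^[n]) :=
  (contDiff_F_iter n).comp (contDiff_const.prodMk contDiff_id)

lemma contDiff_F_iter_k (z : ℝ × ℝ) (n : ℕ) : ContDiff ℝ ⊤ (fun k => (F k)^[n] z) :=
  (contDiff_F_iter n).comp (contDiff_id.prodMk contDiff_const)

lemma differentiable_F_iter (k : ℝ) (n : ℕ) : Differentiable ℝ ((F k)^[n]) :=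
  (contDiff_F_iter_z k n).differentiable (by simp)

/-- derivative cocycle -/
noncomputable def M (n : ℕ) (k : ℝ) (z : ℝ × ℝ) : (ℝ × ℝ) →L[ℝ] (ℝ × ℝ) :=
  fderiv ℝ (F k)^[n] z

lemma continuous_M (n : ℕ) : Continuous (fun p : ℝ × (ℝ × ℝ) => M n p.1 p.2) := by
  have h : ContDiff ℝ 0 (fun p : ℝ × (ℝ × ℝ) => fderiv ℝ ((fun q : ℝ × (ℝ × ℝ) =>
      (F q.1)^[n]) p) p.2) := by
    refine ContDiff.fderiv (m := ⊤) (n := 0) ?_ contDiff_snd (by simp only [zero_add, le_top])
    have : Function.uncurry (fun q : ℝ × (ℝ × ℝ) => (F q.1)^[n])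
        = (fun p : ℝ × (ℝ × ℝ) => (F p.1)^[n] p.2) ∘ fun r => (r.1.1, r.2) := by
      ext1 r; rfl
    rw [this]
    exact (contDiff_F_iter n).comp ((contDiff_fst.comp contDiff_fst).prodMk contDiff_snd)
  exact h.continuous

lemma M_zero (k : ℝ) (z : ℝ × ℝ) : M 0 k z = ContinuousLinearMap.id ℝ (ℝ × ℝ) := by
  unfold M
  rw [Function.iterate_zero]
  exact fderiv_id

lemma M_add (m n : ℕ) (k : ℝ) (z : ℝ × ℝ) :
    M (m + n) k z = (M n k ((F k)^[m] z)).comp (M m k z) := by
  unfold M
  rw [add_comm m n, Function.iterate_add]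
  exact fderiv_comp z (differentiable_F_iter k n _) (differentiable_F_iter k m z)

/-- The one-step derivative. -/
noncomputable def A (k : ℝ) (z : ℝ × ℝ) : (ℝ × ℝ) →L[ℝ] (ℝ × ℝ) :=
  ((ContinuousLinearMap.fst ℝ ℝ ℝ + ContinuousLinearMap.snd ℝ ℝ ℝ)
    + (2 * Real.pi * k * Real.cos (2 * Real.pi * z.1)) • ContinuousLinearMap.fst ℝ ℝ ℝ).prod
  (ContinuousLinearMap.snd ℝ ℝ ℝ
    + (2 * Real.pi * k * Real.cos (2 * Real.pi * z.1)) • ContinuousLinearMap.fst ℝ ℝ ℝ)

lemma A_apply (k : ℝ) (z v : ℝ × ℝ) :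
    A k z v = (v.1 + v.2 + 2 * Real.pi * k * Real.cos (2 * Real.pi * z.1) * v.1,
      v.2 + 2 * Real.pi * k * Real.cos (2 * Real.pi * z.1) * v.1) := by
  simp [A]

lemma hasFDerivAt_F (k : ℝ) (z : ℝ × ℝ) : HasFDerivAt (F k) (A k z) z := by
  have h1 : HasFDerivAt (fun w : ℝ × ℝ => w.1) (ContinuousLinearMap.fst ℝ ℝ ℝ) z :=
    hasFDerivAt_fst
  have h2 : HasFDerivAt (fun w : ℝ × ℝ => w.2) (ContinuousLinearMap.snd ℝ ℝ ℝ) z :=
    hasFDerivAt_snd
  have h3 : HasFDerivAt (fun w : ℝ × ℝ => k * Real.sin (2 * Real.pi * w.1))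
      ((2 * Real.pi * k * Real.cos (2 * Real.pi * z.1)) • ContinuousLinearMap.fst ℝ ℝ ℝ) z := by
    have h4 : HasDerivAt (fun x : ℝ => k * Real.sin (2 * Real.pi * x))
        (2 * Real.pi * k * Real.cos (2 * Real.pi * z.1)) z.1 := by
      have h5 : HasDerivAt (fun x : ℝ => 2 * Real.pi * x) (2 * Real.pi) z.1 := by
        simpa using (hasDerivAt_id z.1).const_mul (2 * Real.pi)
      exact ((h5.sin).const_mul k).congr_deriv (by ring)
    exact h4.comp_hasFDerivAt z h1
  exact ((h1.add h2).add h3).prodMk (h2.add h3)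

lemma M_one (k : ℝ) (z : ℝ × ℝ) : M 1 k z = A k z := by
  unfold M
  rw [Function.iterate_one]
  exact (hasFDerivAt_F k z).fderiv

/-! ### Norm estimates in the sup norm -/

/-- determinant of a 2x2 map -/
def dt (L : (ℝ × ℝ) →L[ℝ] (ℝ × ℝ)) : ℝ :=
  (L (1, 0)).1 * (L (0, 1)).2 - (L (0, 1)).1 * (L (1, 0)).2

lemma L_apply (L : (ℝ × ℝ) →L[ℝ] (ℝ × ℝ)) (v : ℝ × ℝ) :
    L v = v.1 • L (1, 0) + v.2 • L (0, 1) := by
  rw [← map_smul, ← map_smul, ← map_add]
  congr 1
  ext <;> simp

lemma dt_comp (L P : (ℝ × ℝ) →L[ℝ] (ℝ × ℝ)) : dt (L.comp P) = dt L * dt P := by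
  unfold dt
  simp only [ContinuousLinearMap.comp_apply]
  rw [L_apply L (P (1, 0)), L_apply L (P (0, 1))]
  simp only [Prod.fst_add, Prod.snd_add, Prod.smul_fst, Prod.smul_snd, smul_eq_mul]
  ring

lemma dt_A (k : ℝ) (z : ℝ × ℝ) : dt (A k z) = 1 := by
  unfold dt
  simp only [A_apply]
  ring

lemma dt_id : dt (ContinuousLinearMap.id ℝ (ℝ × ℝ)) = 1 := by
  simp [dt]

lemma dt_M (n : ℕ) (k : ℝ) (z : ℝ × ℝ) : dt (M n k z) = 1 := by
  induction n with
  | zero => rw [M_zero]; exact dt_id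
  | succ n ih => rw [M_add, dt_comp, ih, M_one, dt_A, one_mul]

lemma entry_row1 (L : (ℝ × ℝ) →L[ℝ] (ℝ × ℝ)) : |(L (1, 0)).1| + |(L (0, 1)).1| ≤ ‖L‖ := by
  set a := (L (1, 0)).1
  set b := (L (0, 1)).1
  have h := L.le_opNorm (SignType.sign a, SignType.sign b)
  have hn : ‖((SignType.sign a : ℝ), (SignType.sign b : ℝ))‖ ≤ 1 := by
    rw [Prod.norm_def]
    apply max_le <;>
    · simp only [Real.norm_eq_abs]
      rcases lt_trichotomy a 0 with ha | ha | ha <;> rcases lt_trichotomy b 0 with hb | hb | hb <;>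
        simp [ha, hb]
  have h1 : |(L (SignType.sign a, SignType.sign b)).1| ≤ ‖L‖ := by
    calc |(L (SignType.sign a, SignType.sign b)).1| ≤ ‖L (SignType.sign a, SignType.sign b)‖ := by
          rw [← Real.norm_eq_abs]; exact norm_fst_le _
      _ ≤ ‖L‖ * ‖((SignType.sign a : ℝ), (SignType.sign b : ℝ))‖ := h
      _ ≤ ‖L‖ * 1 := by gcongr
      _ = ‖L‖ := mul_one _
  rw [L_apply L] at h1
  have h2 : (((SignType.sign a : ℝ), (SignType.sign b : ℝ)).1 • L (1, 0)
      + ((SignType.sign a : ℝ), (SignType.sign b : ℝ)).2 • L (0, 1)).1 = |a| + |b| := by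
    simp only [Prod.fst_add, Prod.smul_fst, smul_eq_mul]
    change (SignType.sign a : ℝ) * a + (SignType.sign b : ℝ) * b = _
    rw [sign_mul_self, sign_mul_self]
  rw [h2] at h1
  exact (le_abs_self _).trans h1

lemma entry_row2 (L : (ℝ × ℝ) →L[ℝ] (ℝ × ℝ)) : |(L (1, 0)).2| + |(L (0, 1)).2| ≤ ‖L‖ := by
  set a := (L (1, 0)).2
  set b := (L (0, 1)).2
  have h := L.le_opNorm (SignType.sign a, SignType.sign b)
  have hn : ‖((SignType.sign a : ℝ), (SignType.sign b : ℝ))‖ ≤ 1 := by
    rw [Prod.norm_def]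
    apply max_le <;>
    · simp only [Real.norm_eq_abs]
      rcases lt_trichotomy a 0 with ha | ha | ha <;> rcases lt_trichotomy b 0 with hb | hb | hb <;>
        simp [ha, hb]
  have h1 : |(L (SignType.sign a, SignType.sign b)).2| ≤ ‖L‖ := by
    calc |(L (SignType.sign a, SignType.sign b)).2| ≤ ‖L (SignType.sign a, SignType.sign b)‖ := by
          rw [← Real.norm_eq_abs]; exact norm_snd_le _
      _ ≤ ‖L‖ * ‖((SignType.sign a : ℝ), (SignType.sign b : ℝ))‖ := h
      _ ≤ ‖L‖ * 1 := by gcongr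
      _ = ‖L‖ := mul_one _
  rw [L_apply L] at h1
  have h2 : (((SignType.sign a : ℝ), (SignType.sign b : ℝ)).1 • L (1, 0)
      + ((SignType.sign a : ℝ), (SignType.sign b : ℝ)).2 • L (0, 1)).2 = |a| + |b| := by
    simp only [Prod.snd_add, Prod.smul_snd, smul_eq_mul]
    change (SignType.sign a : ℝ) * a + (SignType.sign b : ℝ) * b = _
    rw [sign_mul_self, sign_mul_self]
  rw [h2] at h1
  exact (le_abs_self _).trans h1

lemma one_le_norm_of_dt {L : (ℝ × ℝ) →L[ℝ] (ℝ × ℝ)} (hL : dt L = 1) : 1 ≤ ‖L‖ := by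
  have h1 := entry_row1 L
  have h2 := entry_row2 L
  unfold dt at hL
  set a := (L (1, 0)).1
  set b := (L (0, 1)).1
  set c := (L (1, 0)).2
  set d := (L (0, 1)).2
  have h3 : (1 : ℝ) ≤ |a| * |d| + |b| * |c| := by
    calc (1 : ℝ) = a * d - b * c := hL.symm
      _ ≤ |a * d - b * c| := le_abs_self _
      _ ≤ |a * d| + |b * c| := abs_sub _ _
      _ = |a| * |d| + |b| * |c| := by rw [abs_mul, abs_mul]
  have ha := abs_nonneg a
  have hb := abs_nonneg b
  have hc := abs_nonneg c
  have hd := abs_nonneg d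
  have h4 : (1 : ℝ) ≤ (|a| + |b|) * (|c| + |d|) := by nlinarith only [h3, ha, hc, hb, hd]
  have h5 : (|a| + |b|) * (|c| + |d|) ≤ ‖L‖ * ‖L‖ := by
    apply mul_le_mul h1 h2 (by (clear * -; positivity)) (norm_nonneg _)
  nlinarith only [h4, h5, h1, ha, hb]

lemma one_le_norm_M (n : ℕ) (k : ℝ) (z : ℝ × ℝ) : 1 ≤ ‖M n k z‖ :=
  one_le_norm_of_dt (dt_M n k z)

/-- If `P` has determinant one then `‖N‖ ≤ 2 ‖N P‖ ‖P‖`. -/
lemma norm_le_of_comp {N P : (ℝ × ℝ) →L[ℝ] (ℝ × ℝ)} (hP : dt P = 1) :
    ‖N‖ ≤ 2 * ‖P‖ * ‖N.comp P‖ := by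
  refine ContinuousLinearMap.opNorm_le_bound _ (by positivity) fun v => ?_
  have h1 := entry_row1 P
  have h2 := entry_row2 P
  have hPa := L_apply P
  unfold dt at hP
  set a := (P (1, 0)).1
  set b := (P (0, 1)).1
  set c := (P (1, 0)).2
  set d := (P (0, 1)).2
  set u : ℝ × ℝ := (d * v.1 - b * v.2, a * v.2 - c * v.1) with hu
  have hPu : P u = v := by
    rw [hPa u]
    ext
    · simp only [Prod.fst_add, Prod.smul_fst, smul_eq_mul, hu]
      change (d * v.1 - b * v.2) * a + (a * v.2 - c * v.1) * b = v.1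
      linear_combination v.1 * hP
    · simp only [Prod.snd_add, Prod.smul_snd, smul_eq_mul, hu]
      change (d * v.1 - b * v.2) * c + (a * v.2 - c * v.1) * d = v.2
      linear_combination v.2 * hP
  have ha := abs_nonneg a
  have hb := abs_nonneg b
  have hc := abs_nonneg c
  have hd := abs_nonneg d
  have hv1 : |v.1| ≤ ‖v‖ := by rw [← Real.norm_eq_abs]; exact norm_fst_le v
  have hv2 : |v.2| ≤ ‖v‖ := by rw [← Real.norm_eq_abs]; exact norm_snd_le v
  have hvn := norm_nonneg v
  have hun : ‖u‖ ≤ 2 * ‖P‖ * ‖v‖ := by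
    rw [Prod.norm_def]
    apply max_le
    · rw [Real.norm_eq_abs]
      calc |d * v.1 - b * v.2| ≤ |d * v.1| + |b * v.2| := abs_sub _ _
        _ = |d| * |v.1| + |b| * |v.2| := by rw [abs_mul, abs_mul]
        _ ≤ |d| * ‖v‖ + |b| * ‖v‖ := by gcongr
        _ = (|d| + |b|) * ‖v‖ := by ring
        _ ≤ (2 * ‖P‖) * ‖v‖ := by gcongr; linarith only [h1, h2, ha, hc]
    · rw [Real.norm_eq_abs]
      calc |a * v.2 - c * v.1| ≤ |a * v.2| + |c * v.1| := abs_sub _ _
        _ = |a| * |v.2| + |c| * |v.1| := by rw [abs_mul, abs_mul]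
        _ ≤ |a| * ‖v‖ + |c| * ‖v‖ := by (clear * - hv2 hv1; gcongr)
        _ = (|a| + |c|) * ‖v‖ := by ring
        _ ≤ (2 * ‖P‖) * ‖v‖ := by gcongr; linarith only [h1, h2, hb, hd]
  calc ‖N v‖ = ‖(N.comp P) u‖ := by rw [ContinuousLinearMap.comp_apply, hPu]
    _ ≤ ‖N.comp P‖ * ‖u‖ := (N.comp P).le_opNorm u
    _ ≤ ‖N.comp P‖ * (2 * ‖P‖ * ‖v‖) := by gcongr
    _ = 2 * ‖P‖ * ‖N.comp P‖ * ‖v‖ := by ring

/-- uniform bound for one step -/
noncomputable def C1 (k : ℝ) : ℝ := 2 + 2 * Real.pi * |k|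

lemma two_le_C1 (k : ℝ) : 2 ≤ C1 k := by
  unfold C1
  have := Real.pi_pos
  have := abs_nonneg k
  nlinarith [mul_nonneg (mul_nonneg zero_le_two Real.pi_pos.le) (abs_nonneg k)]

lemma C1_mono {k R : ℝ} (h : |k| ≤ R) : C1 k ≤ 2 + 2 * Real.pi * R := by
  unfold C1
  have := Real.pi_pos
  gcongr

lemma norm_A_le (k : ℝ) (z : ℝ × ℝ) : ‖A k z‖ ≤ C1 k := by
  have hC := two_le_C1 k
  refine ContinuousLinearMap.opNorm_le_bound _ (by linarith only [hC]) fun v => ?_
  rw [A_apply]
  have hv1 : |v.1| ≤ ‖v‖ := by rw [← Real.norm_eq_abs]; exact norm_fst_le v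
  have hv2 : |v.2| ≤ ‖v‖ := by rw [← Real.norm_eq_abs]; exact norm_snd_le v
  have hvn := norm_nonneg v
  have hcos : |2 * Real.pi * k * Real.cos (2 * Real.pi * z.1) * v.1| ≤ 2 * Real.pi * |k| * ‖v‖ := by
    rw [abs_mul, abs_mul, abs_mul, abs_mul, abs_of_pos (zero_lt_two), abs_of_pos Real.pi_pos]
    have h1 := Real.abs_cos_le_one (2 * Real.pi * z.1)
    have h2 : 0 ≤ 2 * Real.pi * |k| := by positivity
    calc 2 * Real.pi * |k| * |Real.cos (2 * Real.pi * z.1)| * |v.1|
        ≤ 2 * Real.pi * |k| * 1 * ‖v‖ := by gcongr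
      _ = 2 * Real.pi * |k| * ‖v‖ := by ring
  rw [Prod.norm_def]
  unfold C1
  apply max_le
  · rw [Real.norm_eq_abs]
    calc |v.1 + v.2 + 2 * Real.pi * k * Real.cos (2 * Real.pi * z.1) * v.1|
        ≤ |v.1 + v.2| + |2 * Real.pi * k * Real.cos (2 * Real.pi * z.1) * v.1| := abs_add_le _ _
      _ ≤ (|v.1| + |v.2|) + |2 * Real.pi * k * Real.cos (2 * Real.pi * z.1) * v.1| := by
          gcongr; exact abs_add_le _ _
      _ ≤ (‖v‖ + ‖v‖) + 2 * Real.pi * |k| * ‖v‖ := by gcongr
      _ = (2 + 2 * Real.pi * |k|) * ‖v‖ := by ring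
  · rw [Real.norm_eq_abs]
    calc |v.2 + 2 * Real.pi * k * Real.cos (2 * Real.pi * z.1) * v.1|
        ≤ |v.2| + |2 * Real.pi * k * Real.cos (2 * Real.pi * z.1) * v.1| := abs_add_le _ _
      _ ≤ ‖v‖ + 2 * Real.pi * |k| * ‖v‖ := by gcongr
      _ ≤ (2 + 2 * Real.pi * |k|) * ‖v‖ := by linarith

lemma norm_M_le (n : ℕ) (k : ℝ) (z : ℝ × ℝ) : ‖M n k z‖ ≤ C1 k ^ n := by
  have hC := two_le_C1 k
  induction n with
  | zero => rw [M_zero, pow_zero]; exact ContinuousLinearMap.norm_id_le
  | succ n ih =>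
    rw [M_add, M_one]
    calc ‖(A k ((F k)^[n] z)).comp (M n k z)‖ ≤ ‖A k ((F k)^[n] z)‖ * ‖M n k z‖ :=
          ContinuousLinearMap.opNorm_comp_le _ _
      _ ≤ C1 k * C1 k ^ n := by
          apply mul_le_mul (norm_A_le _ _) ih (norm_nonneg _) (by linarith only [hC])
      _ = C1 k ^ (n + 1) := by ring

/-! ### The subadditive cocycle -/

/-- log of the norm of the derivative -/
noncomputable def g (k : ℝ) (n : ℕ) (z : ℝ × ℝ) : ℝ := Real.log ‖M n k z‖

lemma g_nonneg (k : ℝ) (n : ℕ) (z : ℝ × ℝ) : 0 ≤ g k n z := Real.log_nonneg (one_le_norm_M n k z)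

lemma g_bound (k : ℝ) (n : ℕ) (z : ℝ × ℝ) : g k n z ≤ Real.log (C1 k) * n := by
  have h1 := one_le_norm_M n k z
  have h2 := norm_M_le n k z
  have : g k n z ≤ Real.log (C1 k ^ n) := Real.log_le_log (by linarith) h2
  rw [Real.log_pow] at this
  linarith only [this]

lemma M_add_ip (k : ℝ) (n : ℕ) (z : ℝ × ℝ) (a b : ℤ) : M n k (z + ip a b) = M n k z :=
  fderiv_iter_add_ip k n z a b

lemma M_T_iter (k : ℝ) (n m : ℕ) (z : ℝ × ℝ) : M n k ((F k)^[m] z) = M n k ((T k)^[m] z) := by
  obtain ⟨a, b, h⟩ := T_iter_eq k m z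
  rw [h, M_add_ip]

lemma subCocycle_g (k : ℝ) : SubCocycle (T k) (g k) (Real.log (C1 k)) where
  C0 := Real.log_nonneg (by have := two_le_C1 k; linarith)
  nonneg := g_nonneg k
  bound := g_bound k
  sub := by
    intro m n z
    unfold g
    have h1 := one_le_norm_M m k z
    have h2 := one_le_norm_M n k ((T k)^[m] z)
    have h3 := one_le_norm_M (m + n) k z
    rw [← Real.log_mul (by positivity) (by positivity)]
    apply Real.log_le_log (by linarith only [h3])
    rw [M_add, M_T_iter, mul_comm]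
    exact ContinuousLinearMap.opNorm_comp_le _ _

lemma continuous_g (n : ℕ) : Continuous (fun p : ℝ × (ℝ × ℝ) => g p.1 n p.2) := by
  unfold g
  refine Continuous.log (continuous_M n).norm fun p => ?_
  have := one_le_norm_M n p.1 p.2
  positivity

lemma continuous_g_z (k : ℝ) (n : ℕ) : Continuous (g k n) := by
  have h : Continuous (fun z : ℝ × ℝ => ((k, z) : ℝ × (ℝ × ℝ))) :=
    continuous_const.prodMk continuous_id
  have h2 := (continuous_g n).comp h
  have h3 : (fun p : ℝ × (ℝ × ℝ) => g p.1 n p.2) ∘ (fun z : ℝ × ℝ => ((k, z) : ℝ × (ℝ × ℝ)))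
      = g k n := by
    funext z
    simp only [Function.comp_apply]
  rw [h3] at h2
  exact h2

lemma measurable_g_z (k : ℝ) (n : ℕ) : Measurable (g k n) := (continuous_g_z k n).measurable

lemma lyap_eq (k : ℝ) (z : ℝ × ℝ) : lyap k z = limsup (fun n : ℕ => g k n z / n) atTop := rfl

/-- the space average of the log norm -/
noncomputable def u (n : ℕ) (k : ℝ) : ℝ := ∫ z, g k n z ∂mQ

lemma ent_le_u {n : ℕ} (hn : 1 ≤ n) (k : ℝ) : ent k ≤ u n k / n :=
  (subCocycle_g k).integral_limsup_le (mp_T k) (measurable_g_z k) hn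

lemma tendsto_u (k : ℝ) : Tendsto (fun n : ℕ => u n k / n) atTop (𝓝 (ent k)) :=
  (subCocycle_g k).tendsto_integral (mp_T k) (measurable_g_z k)

lemma lyap_nonneg (k : ℝ) (z : ℝ × ℝ) : 0 ≤ lyap k z := (subCocycle_g k).limsup_nonneg z

lemma lyap_le (k : ℝ) (z : ℝ × ℝ) : lyap k z ≤ Real.log (C1 k) := (subCocycle_g k).limsup_le_C z

lemma measurable_lyap (k : ℝ) : Measurable (lyap k) :=
  (subCocycle_g k).measurable_limsup (measurable_g_z k)

lemma integrable_lyap (k : ℝ) : Integrable (lyap k) mQ :=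
  (subCocycle_g k).integrable_limsup (measurable_g_z k)

lemma ent_eq' (k : ℝ) : ent k = ∫ z, lyap k z ∂mQ := rfl

lemma ent_nonneg (k : ℝ) : 0 ≤ ent k := integral_nonneg (lyap_nonneg k)

lemma ent_le (k : ℝ) : ent k ≤ Real.log (C1 k) := by
  have h : ent k ≤ ∫ _z, Real.log (C1 k) ∂mQ := by
    rw [ent_eq']
    exact integral_mono (integrable_lyap k) (integrable_const _) (lyap_le k)
  simpa only [ge_iff_le, integral_const, probReal_univ, smul_eq_mul, one_mul] using h

lemma ent_pos_iff (k : ℝ) : 0 < ent k ↔ 0 < volume {z | z ∈ Q ∧ 0 < lyap k z} := by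
  have hQ : MeasurableSet Q := measurableSet_Ico.prod measurableSet_Ico
  rw [ent_eq', integral_pos_iff_support_of_nonneg (lyap_nonneg k) (integrable_lyap k)]
  have hset : Function.support (lyap k) = {z | 0 < lyap k z} := by
    ext z
    simp only [Function.mem_support, mem_ofPred_eq]
    exact ⟨fun h => lt_of_le_of_ne (lyap_nonneg k z) (Ne.symm h), fun h => h.ne'⟩
  rw [hset, mQ, Measure.restrict_apply (measurableSet_lt measurable_const (measurable_lyap k))]
  have : {z | 0 < lyap k z} ∩ Q = {z | z ∈ Q ∧ 0 < lyap k z} := by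
    ext z; simp [and_comm]
  rw [this]

lemma continuous_u (n : ℕ) : Continuous (u n) := by
  rw [continuous_iff_continuousAt]
  intro k0
  refine continuousAt_of_dominated (bound := fun _ => Real.log (2 + 2 * Real.pi * (|k0| + 1)) * n)
    ?_ ?_ (integrable_const _) ?_
  · exact Eventually.of_forall fun k => (measurable_g_z k n).aestronglyMeasurable
  · have h : ∀ᶠ k in 𝓝 k0, |k| < |k0| + 1 :=
      (continuous_abs.tendsto k0).eventually (gt_mem_nhds (by linarith))
    filter_upwards [h] with k hk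
    refine Eventually.of_forall fun z => ?_
    rw [Real.norm_eq_abs, abs_of_nonneg (g_nonneg k n z)]
    refine (g_bound k n z).trans ?_
    have h1 := two_le_C1 k
    gcongr
    exact C1_mono hk.le
  · refine Eventually.of_forall fun z => ?_
    have h : Continuous (fun k : ℝ => ((k, z) : ℝ × (ℝ × ℝ))) :=
      continuous_id.prodMk continuous_const
    exact (Continuous.comp (g := fun p : ℝ × (ℝ × ℝ) => g p.1 n p.2)
      (continuous_g n) h).continuousAt

lemma upperSemicontinuous_ent : UpperSemicontinuous ent := by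
  intro k0 y hy
  have h := (tendsto_u k0).eventually (gt_mem_nhds hy)
  obtain ⟨n, hn, hn1⟩ := (h.and (eventually_ge_atTop 1)).exists
  have hc : ContinuousAt (fun k => u n k / n) k0 := (continuous_u n).continuousAt.div_const _
  filter_upwards [hc.eventually (gt_mem_nhds hn)] with k hk
  exact (ent_le_u hn1 k).trans_lt hk

end Vale.Agent.P108
end
end
end

section

section

section

open MeasureTheory Filter Set Topology

namespace Vale.Agent.P108

lemma abs_A_le (k : ℝ) (z v : ℝ × ℝ) :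
    |(A k z v).1| ≤ (1 + 2 * Real.pi * |k|) * |v.1| + |v.2| ∧
    |(A k z v).2| ≤ 2 * Real.pi * |k| * |v.1| + |v.2| := by
  rw [A_apply]
  have hcos : |2 * Real.pi * k * Real.cos (2 * Real.pi * z.1) * v.1| ≤ 2 * Real.pi * |k| * |v.1| := by
    rw [abs_mul, abs_mul, abs_mul, abs_mul, abs_of_pos (zero_lt_two), abs_of_pos Real.pi_pos]
    have h1 := Real.abs_cos_le_one (2 * Real.pi * z.1)
    calc 2 * Real.pi * |k| * |Real.cos (2 * Real.pi * z.1)| * |v.1|
        ≤ 2 * Real.pi * |k| * 1 * |v.1| := by (clear * - h1; gcongr)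
      _ = 2 * Real.pi * |k| * |v.1| := by ring
  constructor
  · calc |v.1 + v.2 + 2 * Real.pi * k * Real.cos (2 * Real.pi * z.1) * v.1|
        ≤ |v.1 + v.2| + |2 * Real.pi * k * Real.cos (2 * Real.pi * z.1) * v.1| := abs_add_le _ _
      _ ≤ (|v.1| + |v.2|) + |2 * Real.pi * k * Real.cos (2 * Real.pi * z.1) * v.1| := by
          gcongr; exact abs_add_le _ _
      _ ≤ _ := by linarith
  · calc |v.2 + 2 * Real.pi * k * Real.cos (2 * Real.pi * z.1) * v.1|
        ≤ |v.2| + |2 * Real.pi * k * Real.cos (2 * Real.pi * z.1) * v.1| := abs_add_le _ _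
      _ ≤ _ := by linarith only [hcos]

/-- A weighted sup norm adapted to a positive vector. -/
lemma lyap_le_log {k ρ p q : ℝ} (hp : 0 < p) (hq : 0 < q) (hρ : 0 < ρ)
    (h1 : (1 + 2 * Real.pi * |k|) * p + q ≤ ρ * p) (h2 : 2 * Real.pi * |k| * p + q ≤ ρ * q)
    (z : ℝ × ℝ) : lyap k z ≤ Real.log ρ := by
  have hk0 : 0 ≤ 2 * Real.pi * |k| := by positivity
  have hbound : ∀ (n : ℕ) (v : ℝ × ℝ) (t : ℝ), 0 ≤ t → |v.1| ≤ t * p → |v.2| ≤ t * q →
      |(M n k z v).1| ≤ ρ ^ n * t * p ∧ |(M n k z v).2| ≤ ρ ^ n * t * q := by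
    intro n v t ht hv1 hv2
    induction n with
    | zero =>
      rw [M_zero]
      simpa only [ContinuousLinearMap.id_apply, pow_zero, one_mul] using ⟨hv1, hv2⟩
    | succ n ih =>
      rw [M_add, M_one, ContinuousLinearMap.comp_apply]
      obtain ⟨h3, h4⟩ := abs_A_le k ((F k)^[n] z) (M n k z v)
      obtain ⟨i1, i2⟩ := ih
      have ht' : 0 ≤ ρ ^ n * t := by (clear * - hρ ht; positivity)
      constructor
      · calc _ ≤ (1 + 2 * Real.pi * |k|) * |(M n k z v).1| + |(M n k z v).2| := h3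
          _ ≤ (1 + 2 * Real.pi * |k|) * (ρ ^ n * t * p) + ρ ^ n * t * q := by gcongr
          _ = ρ ^ n * t * ((1 + 2 * Real.pi * |k|) * p + q) := by ring
          _ ≤ ρ ^ n * t * (ρ * p) := by gcongr
          _ = ρ ^ (n + 1) * t * p := by ring
      · calc _ ≤ 2 * Real.pi * |k| * |(M n k z v).1| + |(M n k z v).2| := h4
          _ ≤ 2 * Real.pi * |k| * (ρ ^ n * t * p) + ρ ^ n * t * q := by (clear * - i1 i2; gcongr)
          _ = ρ ^ n * t * (2 * Real.pi * |k| * p + q) := by ring
          _ ≤ ρ ^ n * t * (ρ * q) := by (clear * - h2 hρ ht; gcongr)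
          _ = ρ ^ (n + 1) * t * q := by ring
  -- the constant
  set K := (1 / p + 1 / q) * (p + q) with hK
  have hKpos : 0 < K := by positivity
  have hnorm : ∀ n : ℕ, ‖M n k z‖ ≤ K * ρ ^ n := by
    intro n
    refine ContinuousLinearMap.opNorm_le_bound _ (by positivity) fun v => ?_
    have hv1 : |v.1| ≤ ‖v‖ := by rw [← Real.norm_eq_abs]; exact norm_fst_le v
    have hv2 : |v.2| ≤ ‖v‖ := by rw [← Real.norm_eq_abs]; exact norm_snd_le v
    have ht : 0 ≤ (1 / p + 1 / q) * ‖v‖ := by positivity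
    obtain ⟨b1, b2⟩ := hbound n v ((1 / p + 1 / q) * ‖v‖) ht
      (by
        calc |v.1| ≤ ‖v‖ := hv1
          _ = (1 / p) * ‖v‖ * p := by (clear * - hp; field_simp)
          _ ≤ (1 / p + 1 / q) * ‖v‖ * p := by
            gcongr
            have : 0 < 1 / q := by positivity
            linarith only [this])
      (by
        calc |v.2| ≤ ‖v‖ := hv2
          _ = (1 / q) * ‖v‖ * q := by field_simp
          _ ≤ (1 / p + 1 / q) * ‖v‖ * q := by
            gcongr
            have : 0 < 1 / p := by positivity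
            linarith only [this])
    rw [Prod.norm_def]
    have hnn : 0 ≤ ρ ^ n * ((1 / p + 1 / q) * ‖v‖) := by (clear * - hρ hp hq; positivity)
    apply max_le
    · rw [Real.norm_eq_abs]
      calc _ ≤ ρ ^ n * ((1 / p + 1 / q) * ‖v‖) * p := b1
        _ ≤ ρ ^ n * ((1 / p + 1 / q) * ‖v‖) * (p + q) := by gcongr; linarith only [hq]
        _ = K * ρ ^ n * ‖v‖ := by rw [hK]; ring
    · rw [Real.norm_eq_abs]
      calc _ ≤ ρ ^ n * ((1 / p + 1 / q) * ‖v‖) * q := b2
        _ ≤ ρ ^ n * ((1 / p + 1 / q) * ‖v‖) * (p + q) := by gcongr; linarith only [hp]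
        _ = K * ρ ^ n * ‖v‖ := by rw [hK]; ring
  have hsub := subCocycle_g k
  refine le_of_forall_pos_le_add fun ε hε => ?_
  rw [lyap_eq]
  refine limsup_le_of_le
    (isCoboundedUnder_le_div hsub.C0 (fun n => hsub.nonneg n z) (fun n => hsub.bound n z)) ?_
  have hlim : Tendsto (fun n : ℕ => Real.log K / (n : ℝ)) atTop (𝓝 0) :=
    tendsto_const_div_atTop_nhds_zero_nat _
  filter_upwards [hlim.eventually (gt_mem_nhds hε), eventually_ge_atTop 1] with n hn hn1
  have hnpos : (0 : ℝ) < n := by exact_mod_cast hn1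
  have hone := one_le_norm_M n k z
  have hg : g k n z ≤ Real.log K + n * Real.log ρ := by
    have h5 : Real.log ‖M n k z‖ ≤ Real.log (K * ρ ^ n) :=
      Real.log_le_log (by linarith only [hone]) (hnorm n)
    rw [Real.log_mul hKpos.ne' (by positivity), Real.log_pow] at h5
    exact h5
  calc g k n z / n ≤ (Real.log K + n * Real.log ρ) / n := by (clear * - hg hn1; gcongr)
    _ = Real.log ρ + Real.log K / n := by field_simp; ring
    _ ≤ Real.log ρ + ε := by linarith only [hn]

/-- The pointwise bound by the exponent of the hyperbolic fixed point. -/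
lemma lyap_le_arsinh (k : ℝ) (z : ℝ × ℝ) :
    lyap k z ≤ 2 * Real.arsinh (√(2 * Real.pi * |k|) / 2) := by
  rcases eq_or_ne k 0 with rfl | hk
  · simp only [abs_zero, mul_zero, Real.sqrt_zero, zero_div, Real.arsinh_zero]
    have h : ∀ ε : ℝ, 0 < ε → lyap 0 z ≤ Real.log (1 + ε) := by
      intro ε hε
      apply lyap_le_log (p := 1) (q := ε) one_pos hε (by linarith)
      · simp
      · simp only [abs_zero, mul_zero, zero_mul, zero_add]
        nlinarith only [hε]
    have hlim : Tendsto (fun ε : ℝ => Real.log (1 + ε)) (𝓝[>] 0) (𝓝 (Real.log (1 + 0))) := by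
      apply Tendsto.mono_left _ nhdsWithin_le_nhds
      have : ContinuousAt (fun ε : ℝ => Real.log (1 + ε)) 0 := by
        apply ContinuousAt.log
        · fun_prop
        · norm_num
      exact this
    rw [add_zero, Real.log_one] at hlim
    exact ge_of_tendsto hlim (eventually_nhdsWithin_of_forall fun ε hε => h ε hε)
  · set c := 2 * Real.pi * |k| with hc
    have hcpos : 0 < c := by positivity
    set s := √c / 2 with hs
    have hspos : 0 < s := by positivity
    have hs2 : s ^ 2 = c / 4 := by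
      rw [hs, div_pow, Real.sq_sqrt hcpos.le]; norm_num
    set τ := Real.exp (Real.arsinh s) with hτ
    have hτ' : τ = s + √(1 + s ^ 2) := Real.exp_arsinh s
    set r := √(1 + s ^ 2) with hr
    have hr2 : r ^ 2 = 1 + s ^ 2 := Real.sq_sqrt (by positivity)
    have hrpos : 0 < r := by positivity
    have hτpos : 0 < τ := Real.exp_pos _
    have hlog : 2 * Real.arsinh s = Real.log (τ ^ 2) := by
      rw [Real.log_pow, hτ, Real.log_exp]; norm_num
    rw [hlog]
    -- eigenvector
    refine lyap_le_log (p := τ) (q := 2 * s) hτpos (by positivity) (by positivity) ?_ ?_ z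
    · have : (1 + c) * τ + 2 * s = τ ^ 2 * τ := by
        rw [hτ', show c = 4 * s ^ 2 by (clear * - hs2; linarith)]
        linear_combination (-r - 3 * s) * hr2
      rw [hc] at this
      exact this.le
    · have : c * τ + 2 * s = τ ^ 2 * (2 * s) := by
        rw [hτ', show c = 4 * s ^ 2 by linarith only [hs2]]
        linear_combination (-2 * s) * hr2
      rw [hc] at this
      exact this.le

lemma ent_le_arsinh (k : ℝ) : ent k ≤ 2 * Real.arsinh (√(2 * Real.pi * |k|) / 2) := by
  have h : ent k ≤ ∫ _z, 2 * Real.arsinh (√(2 * Real.pi * |k|) / 2) ∂mQ := by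
    rw [ent_eq']
    exact integral_mono (integrable_lyap k) (integrable_const _) (lyap_le_arsinh k)
  simpa only [abs_nonneg, Real.sqrt_mul', Nat.ofNat_nonneg, Real.sqrt_mul, ge_iff_le, integral_const,     probReal_univ, smul_eq_mul, one_mul] using h

end Vale.Agent.P108
end
end
end

section

section

section

open MeasureTheory Filter Set Topology

namespace Vale.Agent.P108

/-- positive entropy parameters -/
def E : Set ℝ := {k | 0 < ent k}

lemma measurable_ent : Measurable ent := upperSemicontinuous_ent.measurable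

lemma measurableSet_E : MeasurableSet E := measurableSet_lt measurable_const measurable_ent

/-- product of Lebesgue on `[-R,R]` with area on the square -/
noncomputable def nu (R : ℝ) : Measure (ℝ × (ℝ × ℝ)) := (volume.restrict (Icc (-R) R)).prod mQ

instance (R : ℝ) : IsFiniteMeasure (nu R) := by unfold nu; infer_instance

lemma measurableSet_Q : MeasurableSet Q := measurableSet_Ico.prod measurableSet_Ico

lemma nu_eq (R : ℝ) : nu R = volume.restrict (Icc (-R) R ×ˢ Q) := by
  unfold nu mQ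
  rw [Measure.prod_restrict, ← Measure.volume_eq_prod]

lemma nu_apply (R : ℝ) {S : Set (ℝ × (ℝ × ℝ))} (hS : MeasurableSet S) :
    nu R S = volume {p : ℝ × (ℝ × ℝ) | |p.1| ≤ R ∧ p.2 ∈ Q ∧ p ∈ S} := by
  rw [nu_eq, Measure.restrict_apply hS]
  congr 1
  ext p
  simp only [mem_inter_iff, mem_prod, mem_Icc, mem_ofPred_eq, abs_le]
  (clear * -; tauto)

lemma nu_real_univ {R : ℝ} (hR : 0 ≤ R) : (nu R).real univ = 2 * R := by
  unfold nu
  rw [measureReal_def, Measure.prod_apply MeasurableSet.univ]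
  simp only [preimage_univ, measure_univ, lintegral_const, one_mul, MeasurableSet.univ,
    Measure.restrict_apply, univ_inter, Real.volume_Icc]
  rw [ENNReal.toReal_ofReal (by linarith)]
  ring

/-- growth set -/
def GS (n : ℕ) (δ : ℝ) : Set (ℝ × (ℝ × ℝ)) := {p | Real.exp (δ * n) ≤ ‖M n p.1 p.2‖}

lemma measurableSet_GS (n : ℕ) (δ : ℝ) : MeasurableSet (GS n δ) :=
  measurableSet_le measurable_const (continuous_M n).norm.measurable

lemma mem_GS_iff {n : ℕ} {δ : ℝ} {p : ℝ × (ℝ × ℝ)} : p ∈ GS n δ ↔ δ * n ≤ g p.1 n p.2 := by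
  have h := one_le_norm_M n p.1 p.2
  unfold GS g
  rw [mem_ofPred_eq, Real.le_log_iff_exp_le (by linarith)]

/-- bound for parameters up to `R` -/
noncomputable def CR (R : ℝ) : ℝ := Real.log (2 + 2 * Real.pi * |R|)

lemma CR_pos (R : ℝ) : 0 < CR R := by
  unfold CR
  apply Real.log_pos
  have : 0 ≤ 2 * Real.pi * |R| := by positivity
  linarith

lemma logC1_le_CR {k R : ℝ} (hk : |k| ≤ |R|) : Real.log (C1 k) ≤ CR R := by
  unfold CR
  have h1 := two_le_C1 k
  exact Real.log_le_log (by linarith) (C1_mono hk)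

lemma ae_nu_mem (R : ℝ) : ∀ᵐ p ∂(nu R), |p.1| ≤ R ∧ p.2 ∈ Q := by
  rw [nu_eq, ae_restrict_iff' (measurableSet_Icc.prod measurableSet_Q)]
  refine Eventually.of_forall fun p hp => ?_
  simp only [mem_prod, mem_Icc] at hp
  exact ⟨abs_le.2 hp.1, hp.2⟩

lemma integrable_g_nu (R : ℝ) (n : ℕ) : Integrable (fun p : ℝ × (ℝ × ℝ) => g p.1 n p.2) (nu R) := by
  refine Integrable.of_bound (C := CR R * n) (continuous_g n).aestronglyMeasurable ?_
  filter_upwards [ae_nu_mem R] with p hp
  rw [Real.norm_eq_abs, abs_of_nonneg (g_nonneg _ _ _)]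
  refine (g_bound _ _ _).trans ?_
  gcongr
  exact logC1_le_CR (hp.1.trans (le_abs_self R))

lemma integral_g_nu (R : ℝ) (n : ℕ) :
    ∫ p, g p.1 n p.2 ∂(nu R) = ∫ k in Icc (-R) R, u n k := by
  unfold nu u
  rw [integral_prod]
  exact integrable_g_nu R n

lemma tendsto_integral_u (R : ℝ) :
    Tendsto (fun n : ℕ => ∫ k in Icc (-R) R, u n k / n) atTop (𝓝 (∫ k in Icc (-R) R, ent k)) := by
  refine tendsto_integral_of_dominated_convergence (fun _ => CR R)
    (fun n => ((continuous_u n).div_const _).aestronglyMeasurable) (integrable_const _)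
    (fun n => ?_) (Eventually.of_forall fun k => tendsto_u k)
  refine (ae_restrict_iff' measurableSet_Icc).2 (Eventually.of_forall fun k hk => ?_)
  have hk' : |k| ≤ |R| := (abs_le.2 hk).trans (le_abs_self R)
  have h0 : 0 ≤ u n k := integral_nonneg (g_nonneg k n)
  have h1 : u n k ≤ Real.log (C1 k) * n := by
    have h : u n k ≤ ∫ _z, Real.log (C1 k) * n ∂mQ :=
      integral_mono ((subCocycle_g k).integrable (measurable_g_z k) n) (integrable_const _)
        (g_bound k n)
    simpa only [ge_iff_le, integral_const, probReal_univ, smul_eq_mul, one_mul] using h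
  rw [Real.norm_eq_abs, abs_of_nonneg (by positivity)]
  rcases Nat.eq_zero_or_pos n with rfl | hn
  · simpa only [CharP.cast_eq_zero, div_zero, ge_iff_le] using (CR_pos R).le
  · have hn' : (0 : ℝ) < n := by exact_mod_cast hn
    rw [div_le_iff₀ hn']
    refine h1.trans ?_
    gcongr
    exact logC1_le_CR hk'

lemma integrable_ent (R : ℝ) : Integrable ent (volume.restrict (Icc (-R) R)) := by
  refine Integrable.of_bound (C := CR R) measurable_ent.aestronglyMeasurable ?_
  refine (ae_restrict_iff' measurableSet_Icc).2 (Eventually.of_forall fun k hk => ?_)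
  rw [Real.norm_eq_abs, abs_of_nonneg (ent_nonneg k)]
  exact (ent_le k).trans (logC1_le_CR ((abs_le.2 hk).trans (le_abs_self R)))

lemma integral_ent_pos_iff (R : ℝ) :
    0 < ∫ k in Icc (-R) R, ent k ↔ 0 < volume (E ∩ Icc (-R) R) := by
  rw [integral_pos_iff_support_of_nonneg ent_nonneg (integrable_ent R)]
  have : Function.support ent = E := by
    ext k
    simp only [Function.mem_support, E, mem_ofPred_eq]
    exact ⟨fun h => lt_of_le_of_ne (ent_nonneg k) (Ne.symm h), fun h => h.ne'⟩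
  rw [this, Measure.restrict_apply measurableSet_E]

lemma volume_E_pos_iff : 0 < volume E ↔ ∃ R : ℝ, 0 < R ∧ 0 < volume (E ∩ Icc (-R) R) := by
  constructor
  · intro h
    by_contra hcon
    push Not at hcon
    have hE : E = ⋃ n : ℕ, E ∩ Icc (-((n : ℝ) + 1)) ((n : ℝ) + 1) := by
      rw [← inter_iUnion]
      symm
      rw [inter_eq_left]
      intro k _
      obtain ⟨n, hn⟩ := exists_nat_ge |k|
      have := abs_le.1 (hn.trans (by linarith only [] : (n : ℝ) ≤ n + 1))
      exact mem_iUnion.2 ⟨n, this⟩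
    rw [hE] at h
    have h0 : volume (⋃ n : ℕ, E ∩ Icc (-((n : ℝ) + 1)) ((n : ℝ) + 1)) = 0 := by
      rw [measure_iUnion_null_iff]
      intro n
      exact le_antisymm (hcon _ (by (clear * -; positivity))) bot_le
    exact h.ne' h0
  · rintro ⟨R, _, h⟩
    exact h.trans_le (measure_mono inter_subset_left)

/-- Sinai's statement is equivalent to a finite-time statement for the derivative in phase space. -/
theorem phase_iff : 0 < volume E ↔ ∃ R δ : ℝ, 0 < δ ∧
    ∃ᶠ n : ℕ in atTop, ENNReal.ofReal δ ≤ nu R (GS n δ) := by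
  constructor
  · intro h
    obtain ⟨R, hR, hE⟩ := volume_E_pos_iff.1 h
    have hc := (integral_ent_pos_iff R).2 hE
    set c := ∫ k in Icc (-R) R, ent k with hcdef
    have hCpos := CR_pos R
    refine ⟨R, min (c / (4 * R)) (c / (2 * CR R)), by (clear * - hc hR hCpos; positivity), ?_⟩
    set δ := min (c / (4 * R)) (c / (2 * CR R)) with hδ
    have hδpos : 0 < δ := by (clear * - hc hR hCpos; positivity)
    have hδ1 : δ ≤ c / (4 * R) := min_le_left _ _
    have hδ2 : δ ≤ c / (2 * CR R) := min_le_right _ _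
    refine Eventually.frequently ?_
    filter_upwards [eventually_ge_atTop 1] with n hn
    have hn' : (0 : ℝ) < n := by exact_mod_cast hn
    -- lower bound for the mean
    have h1 : c ≤ ∫ k in Icc (-R) R, u n k / n :=
      setIntegral_mono (integrable_ent R)
        (((continuous_u n).div_const _).integrableOn_Icc) (fun k => ent_le_u hn k)
    have h2 : ∫ k in Icc (-R) R, u n k / n = (∫ p, g p.1 n p.2 ∂(nu R)) / n := by
      rw [integral_div, integral_g_nu]
    have h3 : ∫ p, g p.1 n p.2 ∂(nu R)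
        ≤ ∫ p, (δ * n + (GS n δ).indicator (fun _ => CR R * n) p) ∂(nu R) := by
      refine integral_mono_ae (integrable_g_nu R n) ?_ ?_
      · exact (integrable_const _).add ((integrable_const _).indicator (measurableSet_GS n δ))
      · filter_upwards [ae_nu_mem R] with p hp
        by_cases hpG : p ∈ GS n δ
        · rw [indicator_of_mem hpG]
          have h4 := g_bound p.1 n p.2
          have h5 : Real.log (C1 p.1) * n ≤ CR R * n := by
            gcongr
            exact logC1_le_CR (hp.1.trans (le_abs_self R))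
          have h6 : 0 ≤ δ * n := by (clear * - hc hR hCpos hn; positivity)
          linarith only [h4, h5, h6]
        · rw [indicator_of_notMem hpG, add_zero]
          rw [mem_GS_iff, not_le] at hpG
          exact hpG.le
    rw [integral_add (integrable_const _) ((integrable_const _).indicator (measurableSet_GS n δ)),
      integral_indicator_const _ (measurableSet_GS n δ), integral_const, nu_real_univ hR.le,
      smul_eq_mul, smul_eq_mul] at h3
    rw [h2, le_div_iff₀ hn'] at h1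
    have h4 : c * n ≤ (2 * R * δ + (nu R).real (GS n δ) * CR R) * n := by linarith only [h1, h3]
    have h5 : c ≤ 2 * R * δ + (nu R).real (GS n δ) * CR R := le_of_mul_le_mul_right h4 hn'
    have h6 : 2 * R * δ ≤ c / 2 := by
      calc 2 * R * δ ≤ 2 * R * (c / (4 * R)) := by (clear * - hδ1 hR; gcongr)
        _ = c / 2 := by field_simp; ring
    have h7 : c / (2 * CR R) ≤ (nu R).real (GS n δ) := by
      rw [div_le_iff₀ (by positivity)]
      nlinarith only [h5, h6]
    have h8 : δ ≤ (nu R).real (GS n δ) := hδ2.trans h7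
    rw [measureReal_def] at h8
    exact (ENNReal.ofReal_le_iff_le_toReal (measure_ne_top _ _)).2 h8
  · rintro ⟨R, δ, hδ, hfr⟩
    have hkey : ∃ᶠ n : ℕ in atTop, δ * δ ≤ ∫ k in Icc (-R) R, u n k / n := by
      refine (hfr.and_eventually (eventually_ge_atTop 1)).mono ?_
      rintro n ⟨hn, hn1⟩
      have hn' : (0 : ℝ) < n := by exact_mod_cast hn1
      rw [integral_div, ← integral_g_nu, le_div_iff₀ hn']
      have h1 : δ ≤ (nu R).real (GS n δ) := by
        rw [measureReal_def]
        exact (ENNReal.ofReal_le_iff_le_toReal (measure_ne_top _ _)).1 hn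
      calc δ * δ * n ≤ (nu R).real (GS n δ) * (δ * n) := by nlinarith only [h1, mul_pos hδ hn']
        _ = ∫ p, (GS n δ).indicator (fun _ => δ * n) p ∂(nu R) := by
            rw [integral_indicator_const _ (measurableSet_GS n δ), smul_eq_mul]
        _ ≤ ∫ p, g p.1 n p.2 ∂(nu R) := by
            refine integral_mono ((integrable_const _).indicator (measurableSet_GS n δ))
              (integrable_g_nu R n) fun p => ?_
            by_cases hp : p ∈ GS n δ
            · rw [indicator_of_mem hp]; exact mem_GS_iff.1 hp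
            · rw [indicator_of_notMem hp]; exact g_nonneg _ _ _
    have hpos : 0 < ∫ k in Icc (-R) R, ent k := by
      have : δ * δ ≤ ∫ k in Icc (-R) R, ent k := by
        by_contra hcon
        push Not at hcon
        have := (tendsto_integral_u R).eventually (gt_mem_nhds hcon)
        obtain ⟨n, h1, h2⟩ := (hkey.and_eventually this).exists
        linarith only [h1, h2]
      have h2 : 0 < δ * δ := by positivity
      linarith
    exact ((integral_ent_pos_iff R).1 hpos).trans_le (measure_mono inter_subset_left)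

end Vale.Agent.P108
end
end
end

section

section

section

open MeasureTheory Filter Set Topology

namespace Vale.Agent.P108

/-! ### Derivative with respect to the parameter -/

/-- derivative of the `n`-th iterate with respect to the parameter -/
noncomputable def w (n : ℕ) (k : ℝ) (z : ℝ × ℝ) : ℝ × ℝ := deriv (fun κ => (F κ)^[n] z) k

lemma hasDerivAt_w (n : ℕ) (k : ℝ) (z : ℝ × ℝ) :
    HasDerivAt (fun κ => (F κ)^[n] z) (w n k z) k :=
  (((contDiff_F_iter_k z n).differentiable (by simp)) k).hasDerivAt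

lemma w_add (m n : ℕ) (k : ℝ) (z : ℝ × ℝ) :
    w (m + n) k z = w n k ((F k)^[m] z) + M n k ((F k)^[m] z) (w m k z) := by
  set ζ := (F k)^[m] z with hζ
  set Φ : ℝ × (ℝ × ℝ) → ℝ × ℝ := fun p => (F p.1)^[n] p.2 with hΦ
  have hd : DifferentiableAt ℝ Φ (k, ζ) := (contDiff_F_iter n).differentiable (by simp) _
  set D := fderiv ℝ Φ (k, ζ) with hD
  have hDd : HasFDerivAt Φ D (k, ζ) := hd.hasFDerivAt
  have h1 : HasDerivAt (fun κ : ℝ => ((κ, (F κ)^[m] z) : ℝ × (ℝ × ℝ))) (1, w m k z) k :=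
    (hasDerivAt_id k).prodMk (hasDerivAt_w m k z)
  have h2 : HasDerivAt (fun κ => (F κ)^[m + n] z) (D (1, w m k z)) k := by
    have h := hDd.comp_hasDerivAt k h1
    have heq : (Φ ∘ fun κ : ℝ => ((κ, (F κ)^[m] z) : ℝ × (ℝ × ℝ)))
        = fun κ => (F κ)^[m + n] z := by
      ext1 κ
      simp only [Function.comp_apply, hΦ]
      rw [add_comm m n, Function.iterate_add_apply]
    rw [heq] at h
    exact h
  have h3 : D (1, 0) = w n k ζ := by
    have h4 : HasDerivAt (fun κ : ℝ => ((κ, ζ) : ℝ × (ℝ × ℝ))) (1, 0) k :=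
      (hasDerivAt_id k).prodMk (hasDerivAt_const k ζ)
    exact (hDd.comp_hasDerivAt k h4).deriv.symm
  have h5 : ∀ v, D (0, v) = M n k ζ v := by
    intro v
    have h6 : HasFDerivAt (fun y : ℝ × ℝ => ((k, y) : ℝ × (ℝ × ℝ)))
        (ContinuousLinearMap.inr ℝ ℝ (ℝ × ℝ)) ζ :=
      (hasFDerivAt_const k ζ).prodMk (hasFDerivAt_id ζ)
    have h7 : HasFDerivAt ((F k)^[n]) (D.comp (ContinuousLinearMap.inr ℝ ℝ (ℝ × ℝ))) ζ :=
      hDd.comp ζ h6
    unfold M
    rw [h7.fderiv]
    simp
  have h8 : D (1, w m k z) = D (1, 0) + D (0, w m k z) := by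
    rw [← map_add]; simp
  calc w (m + n) k z = D (1, w m k z) := h2.deriv
    _ = w n k ζ + M n k ζ (w m k z) := by rw [h8, h3, h5]

lemma w_one (k : ℝ) (z : ℝ × ℝ) :
    w 1 k z = (Real.sin (2 * Real.pi * z.1), Real.sin (2 * Real.pi * z.1)) := by
  have h1 : HasDerivAt (fun κ : ℝ => κ * Real.sin (2 * Real.pi * z.1))
      (Real.sin (2 * Real.pi * z.1)) k := by
    simpa using (hasDerivAt_id k).mul_const (Real.sin (2 * Real.pi * z.1))
  have h2 : HasDerivAt (fun κ => (F κ)^[1] z)
      (Real.sin (2 * Real.pi * z.1), Real.sin (2 * Real.pi * z.1)) k := by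
    have h3 := (h1.const_add (z.1 + z.2)).prodMk (h1.const_add z.2)
    exact h3
  exact h2.deriv

lemma w_zero (k : ℝ) (z : ℝ × ℝ) : w 0 k z = 0 := by
  unfold w
  simp

lemma F_iter_add_ip_unif (n : ℕ) (a b : ℤ) :
    ∃ c : ℤ, ∀ (k : ℝ) (z : ℝ × ℝ), (F k)^[n] (z + ip a b) = (F k)^[n] z + ip c b := by
  induction n generalizing a with
  | zero => exact ⟨a, fun k z => rfl⟩
  | succ n ih =>
    obtain ⟨c, hc⟩ := ih (a + b)
    exact ⟨c, fun k z => by
      rw [Function.iterate_succ_apply, F_add_ip, hc, Function.iterate_succ_apply]⟩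

lemma w_add_ip (n : ℕ) (k : ℝ) (z : ℝ × ℝ) (a b : ℤ) : w n k (z + ip a b) = w n k z := by
  obtain ⟨c, hc⟩ := F_iter_add_ip_unif n a b
  unfold w
  simp only [hc, deriv_add_const]

lemma w_F (n : ℕ) (k : ℝ) (z : ℝ × ℝ) : w n k (F k z) = w n k (T k z) := by
  obtain ⟨a, b, h⟩ := T_eq k z
  rw [h, w_add_ip]

lemma M_F (n : ℕ) (k : ℝ) (z : ℝ × ℝ) : M n k (F k z) = M n k (T k z) := by
  obtain ⟨a, b, h⟩ := T_eq k z
  rw [h, M_add_ip]

lemma norm_w_one_le (k : ℝ) (z : ℝ × ℝ) : ‖w 1 k z‖ ≤ 1 := by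
  rw [w_one, Prod.norm_def]
  simp only [Real.norm_eq_abs, max_self]
  exact Real.abs_sin_le_one _

lemma norm_w_le_sum (n : ℕ) (k : ℝ) (z : ℝ × ℝ) :
    ‖w n k z‖ ≤ ∑ j ∈ Finset.range n, ‖M (n - 1 - j) k ((F k)^[j + 1] z)‖ := by
  induction n generalizing z with
  | zero => simp only [w_zero, norm_zero, Finset.range_zero, zero_tsub, Function.iterate_succ, Function.comp_apply, Finset.sum_empty, Std.le_refl]
  | succ n ih =>
    rw [add_comm n 1, w_add]
    simp only [Function.iterate_one]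
    rw [add_comm 1 n, Finset.sum_range_succ']
    refine (norm_add_le _ _).trans (add_le_add ?_ ?_)
    · refine (ih (F k z)).trans (le_of_eq ?_)
      refine Finset.sum_congr rfl fun j hj => ?_
      have hj' := Finset.mem_range.1 hj
      rw [← Function.iterate_succ_apply (F k) (j + 1) z]
      congr 2
      (clear * - hj'; omega)
    · calc ‖M n k (F k z) (w 1 k z)‖ ≤ ‖M n k (F k z)‖ * ‖w 1 k z‖ :=
            ContinuousLinearMap.le_opNorm _ _
        _ ≤ ‖M n k (F k z)‖ * 1 := by gcongr; exact norm_w_one_le _ _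
        _ = ‖M (n + 1 - 1 - 0) k ((F k)^[0 + 1] z)‖ := by simp only [mul_one, add_tsub_cancel_right, tsub_zero, zero_add, Function.iterate_one]

lemma norm_w_le (n : ℕ) (k : ℝ) (z : ℝ × ℝ) :
    ‖w n k z‖ ≤ ∑ j ∈ Finset.range n, 2 * ‖M (j + 1) k z‖ * ‖M n k z‖ := by
  refine (norm_w_le_sum n k z).trans (Finset.sum_le_sum fun j hj => ?_)
  have hj' := Finset.mem_range.1 hj
  have h : M n k z = (M (n - 1 - j) k ((F k)^[j + 1] z)).comp (M (j + 1) k z) := by
    rw [← M_add]
    congr 1
    omega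
  conv_rhs => rw [h]
  exact norm_le_of_comp (dt_M _ _ _)

/-- If the exponent vanishes then the parameter derivative grows subexponentially. -/
lemma eventually_w_lt {k : ℝ} {z : ℝ × ℝ} (h : lyap k z = 0) {δ : ℝ} (hδ : 0 < δ) :
    ∀ᶠ n : ℕ in atTop, ‖w n k z‖ < Real.exp (δ * n) := by
  have hsub := subCocycle_g k
  -- g_j ≤ δ/4 j + c for all j
  have h1 : ∀ᶠ n : ℕ in atTop, g k n z / n < δ / 4 := by
    refine eventually_lt_of_limsup_lt ?_
      (isBoundedUnder_le_div hsub.C0 (fun n => hsub.nonneg n z) (fun n => hsub.bound n z))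
    rw [← lyap_eq, h]; positivity
  obtain ⟨N, hN⟩ := eventually_atTop.1 h1
  obtain ⟨c, hc0, hc⟩ : ∃ c : ℝ, 0 ≤ c ∧ ∀ j : ℕ, g k j z ≤ δ / 4 * j + c := by
    refine ⟨Real.log (C1 k) * (N + 1), mul_nonneg hsub.C0 (by positivity), fun j => ?_⟩
    rcases le_or_gt j (N + 1) with hj | hj
    · have h2 := g_bound k j z
      have h3 : Real.log (C1 k) * j ≤ Real.log (C1 k) * (N + 1) := by
        apply mul_le_mul_of_nonneg_left _ hsub.C0
        exact_mod_cast hj
      have h4 : 0 ≤ δ / 4 * j := by (clear * - hδ; positivity)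
      linarith
    · have h2 := hN j (by omega)
      have hj' : (0 : ℝ) < j := by
        have : 0 < j := by omega
        exact_mod_cast this
      rw [div_lt_iff₀ hj'] at h2
      have h3 : 0 ≤ Real.log (C1 k) * (N + 1) := mul_nonneg hsub.C0 (by (clear * -; positivity))
      (clear * - h2 h3; linarith)
  have hM : ∀ j : ℕ, ‖M j k z‖ ≤ Real.exp (δ / 4 * j + c) := by
    intro j
    have h2 := one_le_norm_M j k z
    rw [← Real.log_le_iff_le_exp (by linarith)]
    exact hc j
  have hlim : Tendsto (fun n : ℕ => (n : ℝ) * Real.exp (-(δ / 2) * n)) atTop (𝓝 0) := by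
    have h5 := (Real.tendsto_pow_mul_exp_neg_atTop_nhds_zero 1)
    have h6 : Tendsto (fun n : ℕ => δ / 2 * (n : ℝ)) atTop atTop :=
      tendsto_natCast_atTop_atTop.const_mul_atTop (by (clear * - hδ; positivity))
    have h7 := (h5.comp h6).const_mul (2 / δ)
    rw [mul_zero] at h7
    refine h7.congr fun n => ?_
    simp only [Function.comp_apply, pow_one]
    have : -(δ / 2 * (n : ℝ)) = -(δ / 2) * n := by ring
    rw [this]
    (clear * - hδ; field_simp)
  have hev : ∀ᶠ n : ℕ in atTop,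
      (n : ℝ) * Real.exp (-(δ / 2) * n) < (2 * Real.exp (2 * c))⁻¹ :=
    hlim.eventually (gt_mem_nhds (by positivity))
  filter_upwards [hev, eventually_ge_atTop 1] with n hn hn1
  have hsum : ‖w n k z‖ ≤ n * (2 * Real.exp (δ / 4 * n + c) * Real.exp (δ / 4 * n + c)) := by
    refine (norm_w_le n k z).trans ?_
    have : ∀ j ∈ Finset.range n, 2 * ‖M (j + 1) k z‖ * ‖M n k z‖
        ≤ 2 * Real.exp (δ / 4 * n + c) * Real.exp (δ / 4 * n + c) := by
      intro j hj
      have hj' : j + 1 ≤ n := Finset.mem_range.1 hj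
      have h8 : ‖M (j + 1) k z‖ ≤ Real.exp (δ / 4 * n + c) := by
        refine (hM (j + 1)).trans (Real.exp_le_exp.2 ?_)
        have : ((j + 1 : ℕ) : ℝ) ≤ n := by exact_mod_cast hj'
        nlinarith only [hδ, this]
      have h9 := hM n
      (clear * - h8 h9; gcongr)
    refine (Finset.sum_le_sum this).trans (le_of_eq ?_)
    rw [Finset.sum_const, Finset.card_range, nsmul_eq_mul]
  refine hsum.trans_lt ?_
  have h10 : (n : ℝ) * (2 * Real.exp (δ / 4 * n + c) * Real.exp (δ / 4 * n + c))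
      = (n * Real.exp (-(δ / 2) * n)) * (2 * Real.exp (2 * c)) * Real.exp (δ * n) := by
    have e1 : Real.exp (δ / 4 * n + c) * Real.exp (δ / 4 * n + c)
        = Real.exp (-(δ / 2) * n) * Real.exp (2 * c) * Real.exp (δ * n) := by
      rw [← Real.exp_add, ← Real.exp_add, ← Real.exp_add]
      congr 1; ring
    calc (n : ℝ) * (2 * Real.exp (δ / 4 * n + c) * Real.exp (δ / 4 * n + c))
        = 2 * n * (Real.exp (δ / 4 * n + c) * Real.exp (δ / 4 * n + c)) := by ring
      _ = _ := by rw [e1]; ring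
  rw [h10]
  have h11 : (n * Real.exp (-(δ / 2) * n)) * (2 * Real.exp (2 * c)) < 1 := by
    rwa [lt_inv_comm₀ (by positivity) (by positivity), ← one_div, lt_div_iff₀' (by positivity)] at hn
  calc (n * Real.exp (-(δ / 2) * n)) * (2 * Real.exp (2 * c)) * Real.exp (δ * n)
      < 1 * Real.exp (δ * n) := by
        apply mul_lt_mul_of_pos_right h11 (Real.exp_pos _)
    _ = Real.exp (δ * n) := one_mul _

end Vale.Agent.P108
end
end
end

section

section

section

open MeasureTheory Filter Set Topology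

namespace Vale.Agent.P108

/-- derivative of the first coordinate of the `n`-th iterate with respect to the parameter -/
noncomputable def x' (n : ℕ) (p : ℝ × (ℝ × ℝ)) : ℝ := deriv (fun κ => ((F κ)^[n] p.2).1) p.1

lemma x'_eq (n : ℕ) (p : ℝ × (ℝ × ℝ)) : x' n p = (w n p.1 p.2).1 := by
  unfold x'
  exact (hasFDerivAt_fst.comp_hasDerivAt p.1 (hasDerivAt_w n p.1 p.2)).deriv

lemma w_snd (n : ℕ) (k : ℝ) (z : ℝ × ℝ) : (w (n + 1) k z).2 = (w (n + 1) k z).1 - (w n k z).1 := by
  have h1 := hasDerivAt_w (n + 1) k z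
  have h2 := hasDerivAt_w n k z
  have h3 := hasFDerivAt_snd.comp_hasDerivAt k h1
  have h4 := hasFDerivAt_fst.comp_hasDerivAt k h1
  have h5 := hasFDerivAt_fst.comp_hasDerivAt k h2
  have h6 : (fun κ => ((F κ)^[n + 1] z).2)
      = fun κ => ((F κ)^[n + 1] z).1 - ((F κ)^[n] z).1 := by
    ext1 κ
    rw [Function.iterate_succ_apply']
    simp only [F]
    ring
  have h3' : HasDerivAt (fun κ => ((F κ)^[n + 1] z).2) (w (n + 1) k z).2 k := h3
  rw [h6] at h3'
  exact h3'.unique (h4.sub h5)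

lemma measurable_w (n : ℕ) : Measurable (fun p : ℝ × (ℝ × ℝ) => w n p.1 p.2) := by
  have h : ContDiff ℝ 0 (fun p : ℝ × (ℝ × ℝ) => fderiv ℝ ((fun q : ℝ × (ℝ × ℝ) =>
      fun κ : ℝ => (F κ)^[n] q.2) p) p.1) := by
    refine ContDiff.fderiv (m := ⊤) (n := 0) ?_ contDiff_fst (by simp)
    have : Function.uncurry (fun q : ℝ × (ℝ × ℝ) => fun κ : ℝ => (F κ)^[n] q.2)
        = (fun p : ℝ × (ℝ × ℝ) => (F p.1)^[n] p.2) ∘ fun r => (r.2, r.1.2) := by
      ext1 r; rfl
    rw [this]
    exact (contDiff_F_iter n).comp (contDiff_snd.prodMk (contDiff_snd.comp contDiff_fst))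
  have h2 : Continuous (fun p : ℝ × (ℝ × ℝ) => w n p.1 p.2) := by
    have h3 := h.continuous.clm_apply (continuous_const (y := (1 : ℝ)))
    exact h3
  exact h2.measurable

/-- growth set for the parameter derivative of the first coordinate -/
def XS (n : ℕ) (δ : ℝ) : Set (ℝ × (ℝ × ℝ)) := {p | Real.exp (δ * n) ≤ |x' n p|}

/-- growth set for the full parameter derivative -/
def WS (n : ℕ) (δ : ℝ) : Set (ℝ × (ℝ × ℝ)) := {p | Real.exp (δ * n) ≤ ‖w n p.1 p.2‖}

lemma measurableSet_XS (n : ℕ) (δ : ℝ) : MeasurableSet (XS n δ) := by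
  refine measurableSet_le measurable_const ?_
  have : (fun p => |x' n p|) = fun p : ℝ × (ℝ × ℝ) => |(w n p.1 p.2).1| := by
    ext1 p; rw [x'_eq]
  rw [this]
  exact (measurable_w n).fst.abs

lemma measurableSet_WS (n : ℕ) (δ : ℝ) : MeasurableSet (WS n δ) :=
  measurableSet_le measurable_const (measurable_w n).norm

lemma measurable_lyap_joint : Measurable (fun p : ℝ × (ℝ × ℝ) => lyap p.1 p.2) :=
  Measurable.limsup (f := fun (n : ℕ) (p : ℝ × (ℝ × ℝ)) => g p.1 n p.2 / n)
    fun n => (continuous_g n).measurable.div_const _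

lemma ae_lyap_zero (hE : volume E = 0) (R : ℝ) : ∀ᵐ p ∂(nu R), lyap p.1 p.2 = 0 := by
  unfold nu
  have hm : MeasurableSet {p : ℝ × (ℝ × ℝ) | lyap p.1 p.2 = 0} :=
    measurableSet_eq_fun measurable_lyap_joint measurable_const
  rw [Measure.ae_prod_iff_ae_ae hm]
  have h1 : ∀ᵐ k ∂(volume.restrict (Icc (-R) R)), k ∉ E := by
    apply ae_restrict_of_ae
    exact measure_eq_zero_iff_ae_notMem.1 hE
  filter_upwards [h1] with k hk
  have h2 : ent k = 0 := le_antisymm (not_lt.1 hk) (ent_nonneg k)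
  rw [ent_eq', integral_eq_zero_iff_of_nonneg (lyap_nonneg k) (integrable_lyap k)] at h2
  exact h2

/-- One direction: exponential growth of the parameter derivative implies positive entropy. -/
theorem pos_of_param {R δ : ℝ} (hδ : 0 < δ)
    (h : ∃ᶠ n : ℕ in atTop, ENNReal.ofReal δ ≤ nu R (XS n δ)) : 0 < volume E := by
  rw [pos_iff_ne_zero]
  intro hE
  have hae : ∀ᵐ p ∂(nu R), ∀ᶠ n : ℕ in atTop, p ∈ XS n δ ↔ p ∈ (∅ : Set (ℝ × (ℝ × ℝ))) := by
    filter_upwards [ae_lyap_zero hE R] with p hp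
    filter_upwards [eventually_w_lt hp hδ] with n hn
    constructor
    · intro hmem
      exfalso
      have h1 : Real.exp (δ * n) ≤ |x' n p| := hmem
      rw [x'_eq] at h1
      have h2 : |(w n p.1 p.2).1| ≤ ‖w n p.1 p.2‖ := by
        rw [← Real.norm_eq_abs]; exact norm_fst_le _
      linarith
    · intro hmem; exact absurd hmem (notMem_empty _)
  have hlim := tendsto_measure_of_ae_tendsto_indicator_of_isFiniteMeasure (μ := nu R) (L := atTop)
    MeasurableSet.empty (fun n => measurableSet_XS n δ) hae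
  rw [measure_empty] at hlim
  have h2 : ∀ᶠ n : ℕ in atTop, nu R (XS n δ) < ENNReal.ofReal δ :=
    hlim.eventually (gt_mem_nhds (by simpa only [ENNReal.ofReal_pos] using hδ))
  obtain ⟨n, h3, h4⟩ := (h.and_eventually h2).exists
  exact absurd h3 (not_le.2 h4)

end Vale.Agent.P108
end
end
end

section

section

section

open MeasureTheory Filter Set Topology

namespace Vale.Agent.P108.FT

/-- the solution of the linearized recursion -/
noncomputable def po (k : ℝ) (z : ℝ × ℝ) : ℕ → ℝ × ℝ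
  | 0 => (1, 0)
  | n + 1 => (a k ((F k)^[n] z).1 * (po k z n).1 - (po k z n).2, (po k z n).1)

lemma M_po (k : ℝ) (z : ℝ × ℝ) (n : ℕ) :
    M n k z (1, 1) = ((po k z n).1, (po k z n).1 - (po k z n).2) := by
  induction n with
  | zero => rw [M_zero]; simp only [ContinuousLinearMap.id_apply, po, sub_zero]
  | succ n ih =>
    rw [M_add, M_one, ContinuousLinearMap.comp_apply, ih, A_apply]
    simp only [po, a]
    ext
    · simp only; ring
    · simp only; ring

/-- the growth estimate on the good set -/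
lemma growth {k : ℝ} {z : ℝ × ℝ} {η : ℝ} (hη : 0 < η) (hη2 : η ≤ 1 / 2) {N : ℕ}
    (hgood : ∀ j, j + 1 < N → 2 / η ≤ |a k ((F k)^[j] z).1 * a k ((F k)^[j + 1] z).1|) :
    ∀ n, n < N → (1 - η) * |a k ((F k)^[n] z).1| * |(po k z n).1| ≤ |(po k z (n + 1)).1| := by
  intro n
  induction n with
  | zero =>
    intro _
    simp only [po, sub_zero, mul_one, abs_one]
    nlinarith only [hη, abs_nonneg (a k ((F k)^[0] z).1)]
  | succ n ih =>
    intro hn
    have h1 := ih (by omega)
    have h2 := hgood n hn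
    set A0 := a k ((F k)^[n] z).1
    set A1 := a k ((F k)^[n + 1] z).1
    set p0 := (po k z n).1
    set p1 := (po k z (n + 1)).1 with hp1
    have hrec : (po k z (n + 1 + 1)).1 = A1 * p1 - p0 := rfl
    rw [hrec]
    rw [abs_mul] at h2
    have hA1 := abs_nonneg A1
    have hA0 := abs_nonneg A0
    have hp0 := abs_nonneg p0
    -- |p0| ≤ η |A1 p1|
    have h3 : |p0| ≤ η * (|A1| * |p1|) := by
      have e1 : (1 - η) * (|A0| * |A1|) * |p0| ≤ |A1| * |p1| := by
        calc (1 - η) * (|A0| * |A1|) * |p0| = |A1| * ((1 - η) * |A0| * |p0|) := by ring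
          _ ≤ |A1| * |p1| := by (clear * - h1; gcongr)
      have e2 : (1 - η) * (2 / η) * |p0| ≤ (1 - η) * (|A0| * |A1|) * |p0| := by
        have : 0 ≤ 1 - η := by linarith only [hη2]
        gcongr
      have e3 : |p0| ≤ η * ((1 - η) * (2 / η) * |p0|) := by
        have : η * ((1 - η) * (2 / η) * |p0|) = 2 * (1 - η) * |p0| := by
          field_simp
        rw [this]
        nlinarith only [hη2, hp0]
      calc |p0| ≤ η * ((1 - η) * (2 / η) * |p0|) := e3
        _ ≤ η * (|A1| * |p1|) := by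
          apply mul_le_mul_of_nonneg_left (e2.trans e1) hη.le
    have h4 : |A1 * p1| - |p0| ≤ |A1 * p1 - p0| := abs_sub_abs_le_abs_sub _ _
    rw [abs_mul] at h4
    calc (1 - η) * |A1| * |p1| = |A1| * |p1| - η * (|A1| * |p1|) := by ring
      _ ≤ |A1| * |p1| - |p0| := by linarith only [h3]
      _ ≤ _ := h4

lemma a_add_int (k x : ℝ) (m : ℤ) : a k (x + m) = a k x := by
  unfold a
  rw [show 2 * Real.pi * (x + m) = 2 * Real.pi * x + m * (2 * Real.pi) by ring,
    Real.cos_add_int_mul_two_pi]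

lemma a_T_iter (k : ℝ) (n : ℕ) (z : ℝ × ℝ) :
    a k ((F k)^[n] z).1 = a k ((T k)^[n] z).1 := by
  obtain ⟨c, d, h⟩ := T_iter_eq k n z
  rw [h]
  exact a_add_int k _ c

lemma abs_a_le (k x : ℝ) : |a k x| ≤ 2 + 2 * Real.pi * |k| := by
  unfold a
  have h1 := Real.abs_cos_le_one (2 * Real.pi * x)
  have hπ := Real.pi_pos
  calc |2 + 2 * Real.pi * k * Real.cos (2 * Real.pi * x)|
      ≤ |2| + |2 * Real.pi * k * Real.cos (2 * Real.pi * x)| := abs_add_le _ _
    _ = 2 + 2 * Real.pi * |k| * |Real.cos (2 * Real.pi * x)| := by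
        rw [abs_mul, abs_mul, abs_mul, abs_of_pos hπ, abs_two]
    _ ≤ 2 + 2 * Real.pi * |k| * 1 := by (clear * - h1; gcongr)
    _ = _ := by ring

/-- the bad set for a pair of consecutive visits -/
def bp (k B : ℝ) : Set (ℝ × ℝ) := {z | |a k z.1 * a k (T k z).1| < B}

lemma continuous_a (k : ℝ) : Continuous (a k) := by unfold a; fun_prop

lemma measurable_T (k : ℝ) : Measurable (T k) := (mp_T k).measurable

lemma measurableSet_bp (k B : ℝ) : MeasurableSet (bp k B) := by
  refine measurableSet_lt ?_ measurable_const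
  exact (((continuous_a k).measurable.comp measurable_fst).mul
    ((continuous_a k).measurable.comp (measurable_fst.comp (measurable_T k)))).abs

/-- log |a| along the orbit minus a small constant, on the good set, bounds the cocycle below -/
lemma g_ge {k : ℝ} {z : ℝ × ℝ} {η : ℝ} (hη : 0 < η) (hη2 : η ≤ 1 / 2) {N : ℕ}
    (hgood : ∀ j, j + 1 < N → (T k)^[j] z ∉ bp k (2 / η)) :
    ∑ j ∈ Finset.range N, (Real.log |a k ((T k)^[j] z).1| + Real.log (1 - η)) ≤ g k N z := by
  have hgood' : ∀ j, j + 1 < N → 2 / η ≤ |a k ((F k)^[j] z).1 * a k ((F k)^[j + 1] z).1| := by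
    intro j hj
    have h := hgood j hj
    rw [a_T_iter, a_T_iter, Function.iterate_succ_apply']
    exact not_lt.1 h
  have hgr := growth hη hη2 hgood'
  have h1η : 0 < 1 - η := by linarith only [hη2]
  -- either N ≤ 1, or all the a's are nonzero
  rcases Nat.lt_or_ge N 2 with hN | hN
  · interval_cases N
    · simpa only [Finset.range_zero, Real.log_abs, Finset.sum_empty, ge_iff_le] using g_nonneg k 0 z
    · simp only [Finset.sum_range_one, Function.iterate_zero, id]
      have hlog : Real.log (1 - η) ≤ 0 := Real.log_nonpos h1η.le (by linarith only [hη])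
      rcases eq_or_ne (a k z.1) 0 with h0 | h0
      · rw [h0, abs_zero, Real.log_zero]
        have := g_nonneg k 1 z
        linarith only [hlog, this]
      · have h2 : |a k z.1| ≤ ‖M 1 k z‖ := by
          have h3 := (M 1 k z).le_opNorm (1, 1)
          have h4 : ‖((1 : ℝ), (1 : ℝ))‖ = 1 := by simp [Prod.norm_def]
          rw [h4, mul_one, M_po] at h3
          have h5 := norm_fst_le ((po k z 1).1, (po k z 1).1 - (po k z 1).2)
          simp only [Real.norm_eq_abs] at h5
          have h6 : (po k z 1).1 = a k z.1 := by simp [po]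
          rw [h6] at h5
          rw [h6] at h3
          exact h5.trans h3
        have h7 : Real.log |a k z.1| ≤ g k 1 z := Real.log_le_log (abs_pos.2 h0) h2
        linarith only [hlog, h7]
  · have hne : ∀ j, j < N → a k ((F k)^[j] z).1 ≠ 0 := by
      intro j hj h0
      have hpos : 0 < 2 / η := by positivity
      rcases Nat.lt_or_ge (j + 1) N with hj1 | hj1
      · have := hgood' j hj1
        rw [h0, zero_mul, abs_zero] at this
        linarith only [hpos, this]
      · obtain ⟨i, rfl⟩ : ∃ i, j = i + 1 := ⟨j - 1, by omega⟩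
        have := hgood' i (by omega)
        rw [h0, mul_zero, abs_zero] at this
        linarith only [hpos, this]
    have hprod : ∀ n, n ≤ N → 0 < |(po k z n).1| ∧
        ∑ j ∈ Finset.range n, (Real.log |a k ((T k)^[j] z).1| + Real.log (1 - η))
          ≤ Real.log |(po k z n).1| := by
      intro n
      induction n with
      | zero => intro _; simp only [po, abs_one, zero_lt_one, Finset.range_zero, Real.log_abs, Finset.sum_empty, Real.log_one, Std.le_refl, and_self]
      | succ n ih =>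
        intro hn
        obtain ⟨h1, h2⟩ := ih (by omega)
        have h3 := hgr n (by omega)
        have h4 : 0 < |a k ((F k)^[n] z).1| := abs_pos.2 (hne n (by omega))
        have h5 : 0 < (1 - η) * |a k ((F k)^[n] z).1| * |(po k z n).1| := by (clear * - h1η h4 h1; positivity)
        refine ⟨h5.trans_le h3, ?_⟩
        rw [Finset.sum_range_succ]
        have h6 := Real.log_le_log h5 h3
        rw [Real.log_mul (by positivity) (by positivity), Real.log_mul (by positivity)
          (by positivity), a_T_iter] at h6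
        linarith only [h2, h6]
    obtain ⟨h1, h2⟩ := hprod N le_rfl
    refine h2.trans (Real.log_le_log h1 ?_)
    have h3 := (M N k z).le_opNorm (1, 1)
    have h4 : ‖((1 : ℝ), (1 : ℝ))‖ = 1 := by simp [Prod.norm_def]
    rw [h4, mul_one, M_po] at h3
    have h5 := norm_fst_le ((po k z N).1, (po k z N).1 - (po k z N).2)
    simp only [Real.norm_eq_abs] at h5
    exact h5.trans h3

/-- integrability and mean of log |a| on the square -/
lemma log_a_mQ (k : ℝ) : Integrable (fun z : ℝ × ℝ => Real.log |a k z.1|) mQ ∧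
    ∫ z, Real.log |a k z.1| ∂mQ = ∫ x in (0:ℝ)..1, Real.log |a k x| := by
  have h1 : Integrable (fun x : ℝ => Real.log |a k x|) (volume.restrict (Ico (0 : ℝ) 1)) := by
    have h := intervalIntegrable_log_abs_a k
    rw [intervalIntegrable_iff_integrableOn_Ico_of_le zero_le_one] at h
    exact h
  rw [mQ_eq]
  constructor
  · exact h1.comp_fst _
  · have h2 := integral_fun_fst (μ := volume.restrict (Ico (0 : ℝ) 1))
      (ν := volume.restrict (Ico (0 : ℝ) 1)) (fun x : ℝ => Real.log |a k x|)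
    rw [h2]
    rw [probReal_univ, one_smul]
    rw [intervalIntegral.integral_of_le zero_le_one, integral_Ico_eq_integral_Ioc]

/-- Lower bound for the mean of the cocycle in terms of the measure of the bad set of pairs. -/
theorem u_ge {k : ℝ} (hk : 1 ≤ Real.pi * |k|) {η : ℝ} (hη : 0 < η) (hη2 : η ≤ 1 / 2) (n : ℕ) :
    n * (Real.log (Real.pi * |k|) + Real.log (1 - η)
      - n * mQ.real (bp k (2 / η)) * Real.log (2 + 2 * Real.pi * |k|)) ≤ u n k := by
  have h1η : 0 < 1 - η := by linarith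
  have hlog : Real.log (1 - η) ≤ 0 := Real.log_nonpos h1η.le (by linarith only [hη])
  set L := Real.log (2 + 2 * Real.pi * |k|) with hL
  have hL0 : 0 ≤ L := Real.log_nonneg (by
    have : 0 ≤ 2 * Real.pi * |k| := by positivity
    linarith only [hk])
  set φ : ℝ × ℝ → ℝ := fun z => Real.log |a k z.1| + Real.log (1 - η) with hφ
  have hφint : Integrable φ mQ := (log_a_mQ k).1.add (integrable_const _)
  have hφmeas : Measurable φ :=
    ((continuous_a k).measurable.comp measurable_fst).abs.log.add_const _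
  have hφL : ∀ z, φ z ≤ L := by
    intro z
    have h2 : Real.log |a k z.1| ≤ L := by
      rcases eq_or_ne (a k z.1) 0 with h0 | h0
      · rw [h0, abs_zero, Real.log_zero]; exact hL0
      · exact Real.log_le_log (abs_pos.2 h0) (abs_a_le k z.1)
    show Real.log |a k z.1| + Real.log (1 - η) ≤ L
    linarith only [hlog, h2]
  have hφT : ∀ j, Integrable (fun z => φ ((T k)^[j] z)) mQ ∧
      ∫ z, φ ((T k)^[j] z) ∂mQ = ∫ z, φ z ∂mQ := by
    intro j
    have hj := (mp_T k).iterate j
    constructor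
    · exact (hj.integrable_comp hφmeas.aestronglyMeasurable).2 hφint
    · conv_rhs => rw [← hj.map_eq]
      rw [integral_map hj.measurable.aemeasurable hφmeas.aestronglyMeasurable]
  -- the bad set
  set S : Set (ℝ × ℝ) := ⋃ j ∈ Finset.range n, (T k)^[j] ⁻¹' (bp k (2 / η)) with hS
  have hSmeas : MeasurableSet S := by
    refine Finset.measurableSet_biUnion _ fun j _ => ?_
    exact ((measurable_T k).iterate j) (measurableSet_bp _ _)
  have hSm : mQ.real S ≤ n * mQ.real (bp k (2 / η)) := by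
    calc mQ.real S ≤ ∑ j ∈ Finset.range n, mQ.real ((T k)^[j] ⁻¹' (bp k (2 / η))) :=
          measureReal_biUnion_finset_le _ _
      _ = ∑ j ∈ Finset.range n, mQ.real (bp k (2 / η)) := by
          refine Finset.sum_congr rfl fun j _ => ?_
          rw [measureReal_def, measureReal_def, ((mp_T k).iterate j).measure_preimage
            (measurableSet_bp _ _).nullMeasurableSet]
      _ = n * mQ.real (bp k (2 / η)) := by
          rw [Finset.sum_const, Finset.card_range, nsmul_eq_mul]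
  have hpt : ∀ z, (∑ j ∈ Finset.range n, φ ((T k)^[j] z)) - S.indicator (fun _ => n * L) z
      ≤ g k n z := by
    intro z
    by_cases hz : z ∈ S
    · rw [indicator_of_mem hz]
      have h3 : ∑ j ∈ Finset.range n, φ ((T k)^[j] z) ≤ n * L := by
        calc ∑ j ∈ Finset.range n, φ ((T k)^[j] z) ≤ ∑ _j ∈ Finset.range n, L :=
              Finset.sum_le_sum fun j _ => hφL _
          _ = n * L := by rw [Finset.sum_const, Finset.card_range, nsmul_eq_mul]
      have := g_nonneg k n z
      linarith only [h3, this]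
    · rw [indicator_of_notMem hz, sub_zero]
      apply g_ge hη hη2
      intro j hj hmem
      apply hz
      simp only [hS, mem_iUnion, mem_preimage, Finset.mem_range]
      exact ⟨j, by omega, hmem⟩
  have hint : Integrable (fun z => (∑ j ∈ Finset.range n, φ ((T k)^[j] z))
      - S.indicator (fun _ => n * L) z) mQ :=
    (integrable_finsetSum _ fun j _ => (hφT j).1).sub ((integrable_const _).indicator hSmeas)
  have hmono := integral_mono hint ((subCocycle_g k).integrable (measurable_g_z k) n) hpt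
  rw [integral_sub (integrable_finsetSum _ fun j _ => (hφT j).1)
    ((integrable_const _).indicator hSmeas), integral_finsetSum _ (fun j _ => (hφT j).1),
    integral_indicator_const _ hSmeas, smul_eq_mul] at hmono
  have hsum : ∑ j ∈ Finset.range n, ∫ z, φ ((T k)^[j] z) ∂mQ
      = n * (Real.log (Real.pi * |k|) + Real.log (1 - η)) := by
    rw [Finset.sum_congr rfl fun j _ => (hφT j).2, Finset.sum_const, Finset.card_range,
      nsmul_eq_mul]
    congr 1
    simp only [hφ]
    rw [integral_add (log_a_mQ k).1 (integrable_const _), (log_a_mQ k).2, integral_log_abs_a hk]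
    simp
  rw [hsum] at hmono
  have h4 : mQ.real S * (n * L) ≤ n * mQ.real (bp k (2 / η)) * (n * L) := by
    apply mul_le_mul_of_nonneg_right hSm (by (clear * - hL0; positivity))
  calc n * (Real.log (Real.pi * |k|) + Real.log (1 - η) - n * mQ.real (bp k (2 / η)) * L)
      = n * (Real.log (Real.pi * |k|) + Real.log (1 - η))
        - n * mQ.real (bp k (2 / η)) * (n * L) := by ring
    _ ≤ n * (Real.log (Real.pi * |k|) + Real.log (1 - η)) - mQ.real S * (n * L) := by linarith
    _ ≤ u n k := hmono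

end Vale.Agent.P108.FT
end
end
end

section

section

section

open MeasureTheory Filter Set Topology

namespace Vale.Agent.P108

/-- the skew product on parameter times phase space -/
noncomputable def G (p : ℝ × (ℝ × ℝ)) : ℝ × (ℝ × ℝ) := (p.1, T p.1 p.2)

lemma mp_G (R : ℝ) : MeasurePreserving G (nu R) (nu R) := by
  unfold nu
  refine MeasurePreserving.skew_product (f := id) (g := fun k z => T k z)
    (MeasurePreserving.id _) ?_ (Eventually.of_forall fun k => (mp_T k).map_eq)
  unfold Function.uncurry T F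
  fun_prop

lemma nu_G (R : ℝ) {S : Set (ℝ × (ℝ × ℝ))} (hS : MeasurableSet S) :
    nu R (G ⁻¹' S) = nu R S := (mp_G R).measure_preimage hS.nullMeasurableSet

/-- the sine of the phase is small -/
def SS (η : ℝ) : Set (ℝ × (ℝ × ℝ)) := {p | |Real.sin (2 * Real.pi * p.2.1)| < η}

lemma measurableSet_SS (η : ℝ) : MeasurableSet (SS η) := by
  refine measurableSet_lt ?_ measurable_const
  fun_prop

lemma countable_sin_zero : {x : ℝ | Real.sin (2 * Real.pi * x) = 0}.Countable := by
  have : {x : ℝ | Real.sin (2 * Real.pi * x) = 0} ⊆ range (fun n : ℤ => (n : ℝ) / 2) := by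
    intro x hx
    rw [mem_ofPred_eq, Real.sin_eq_zero_iff] at hx
    obtain ⟨n, hn⟩ := hx
    refine ⟨n, ?_⟩
    have hpi := Real.pi_pos
    simp only
    have : (n : ℝ) = 2 * x := by
      apply mul_right_cancel₀ hpi.ne'
      rw [hn]; ring
    rw [this]; ring
  exact (countable_range _).mono this

lemma nu_sin_zero (R : ℝ) : nu R {p | Real.sin (2 * Real.pi * p.2.1) = 0} = 0 := by
  have hmeas : MeasurableSet {p : ℝ × (ℝ × ℝ) | Real.sin (2 * Real.pi * p.2.1) = 0} := by
    refine measurableSet_eq_fun ?_ measurable_const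
    fun_prop
  unfold nu
  rw [Measure.measure_prod_null hmeas]
  refine Eventually.of_forall fun k => ?_
  have hmeas2 : MeasurableSet {z : ℝ × ℝ | Real.sin (2 * Real.pi * z.1) = 0} := by
    refine measurableSet_eq_fun ?_ measurable_const
    fun_prop
  change mQ {z : ℝ × ℝ | Real.sin (2 * Real.pi * z.1) = 0} = 0
  rw [mQ_eq]
  have : {z : ℝ × ℝ | Real.sin (2 * Real.pi * z.1) = 0}
      = {x : ℝ | Real.sin (2 * Real.pi * x) = 0} ×ˢ univ := by
    ext z; simp
  rw [this, Measure.prod_prod, countable_sin_zero.measure_zero, zero_mul]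

lemma exists_SS_small (R : ℝ) {ε : ℝ} (hε : 0 < ε) :
    ∃ η : ℝ, 0 < η ∧ nu R (SS η) < ENNReal.ofReal ε := by
  have hanti : Antitone fun m : ℕ => SS (1 / ((m : ℝ) + 1)) := by
    intro a b hab p hp
    have h1 : (1 : ℝ) / ((b : ℝ) + 1) ≤ 1 / ((a : ℝ) + 1) := by
      have : (a : ℝ) ≤ b := by exact_mod_cast hab
      (clear * - this; gcongr)
    exact lt_of_lt_of_le hp h1
  have h := tendsto_measure_iInter_atTop (μ := nu R) (s := fun m : ℕ => SS (1 / ((m : ℝ) + 1)))
    (fun m => (measurableSet_SS _).nullMeasurableSet) hanti ⟨0, measure_ne_top _ _⟩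
  have hinter : (⋂ m : ℕ, SS (1 / ((m : ℝ) + 1))) = {p | Real.sin (2 * Real.pi * p.2.1) = 0} := by
    ext p
    simp only [mem_iInter, SS, mem_ofPred_eq]
    constructor
    · intro hp
      by_contra hne
      have hpos : 0 < |Real.sin (2 * Real.pi * p.2.1)| := abs_pos.2 hne
      obtain ⟨m, hm⟩ := exists_nat_one_div_lt hpos
      exact absurd (hp m) (not_lt.2 hm.le)
    · intro hp m
      rw [hp, abs_zero]
      positivity
  rw [hinter, nu_sin_zero] at h
  have h2 : ∀ᶠ m : ℕ in atTop, nu R (SS (1 / ((m : ℝ) + 1))) < ENNReal.ofReal ε :=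
    h.eventually (gt_mem_nhds (by simpa using hε))
  obtain ⟨m, hm⟩ := h2.exists
  exact ⟨1 / ((m : ℝ) + 1), by (clear * -; positivity), hm⟩

/-- from the scalar derivative to the vector derivative -/
lemma W_of_X {R : ℝ} (h : ∀ δ : ℝ, 0 < δ → ∀ᶠ n : ℕ in atTop, nu R (XS n δ) < ENNReal.ofReal δ) :
    ∀ δ : ℝ, 0 < δ → ∀ᶠ n : ℕ in atTop, nu R (WS n δ) < ENNReal.ofReal δ := by
  intro δ hδ
  have h1 := h (δ / 2) (by positivity)
  obtain ⟨N, hN⟩ := eventually_atTop.1 h1
  have hexp : Tendsto (fun n : ℕ => Real.exp (δ / 2 * n)) atTop atTop :=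
    Real.tendsto_exp_atTop.comp (tendsto_natCast_atTop_atTop.const_mul_atTop (by positivity))
  filter_upwards [eventually_ge_atTop (N + 1), hexp.eventually_ge_atTop 2] with n hn hn2
  obtain ⟨m, rfl⟩ : ∃ m, n = m + 1 := ⟨n - 1, by omega⟩
  have hsub : WS (m + 1) δ ⊆ XS (m + 1) (δ / 2) ∪ XS m (δ / 2) := by
    intro p hp
    by_contra hcon
    rw [mem_union, not_or] at hcon
    obtain ⟨hc1, hc2⟩ := hcon
    have hc1' : |(w (m + 1) p.1 p.2).1| < Real.exp (δ / 2 * ((m + 1 : ℕ) : ℝ)) := by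
      rw [← x'_eq]; exact not_le.1 hc1
    have hc2' : |(w m p.1 p.2).1| < Real.exp (δ / 2 * (m : ℝ)) := by
      rw [← x'_eq]; exact not_le.1 hc2
    have hmono : Real.exp (δ / 2 * (m : ℝ)) ≤ Real.exp (δ / 2 * ((m + 1 : ℕ) : ℝ)) := by
      apply Real.exp_le_exp.2
      push_cast
      linarith
    have hw : ‖w (m + 1) p.1 p.2‖ < 2 * Real.exp (δ / 2 * ((m + 1 : ℕ) : ℝ)) := by
      rw [Prod.norm_def, Real.norm_eq_abs, Real.norm_eq_abs]
      apply max_lt
      · have := Real.exp_pos (δ / 2 * ((m + 1 : ℕ) : ℝ)); linarith only [hn2, hc1']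
      · rw [w_snd]
        have := abs_sub (w (m + 1) p.1 p.2).1 (w m p.1 p.2).1
        linarith only [hc1', hc2', hmono, this]
    have hge : Real.exp (δ * ((m + 1 : ℕ) : ℝ)) ≤ ‖w (m + 1) p.1 p.2‖ := hp
    have hsq : Real.exp (δ * ((m + 1 : ℕ) : ℝ))
        = Real.exp (δ / 2 * ((m + 1 : ℕ) : ℝ)) * Real.exp (δ / 2 * ((m + 1 : ℕ) : ℝ)) := by
      rw [← Real.exp_add]; congr 1; ring
    have hpos := Real.exp_pos (δ / 2 * ((m + 1 : ℕ) : ℝ))
    nlinarith only [hn2, hw, hge, hsq]
  calc nu R (WS (m + 1) δ) ≤ nu R (XS (m + 1) (δ / 2) ∪ XS m (δ / 2)) := measure_mono hsub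
    _ ≤ nu R (XS (m + 1) (δ / 2)) + nu R (XS m (δ / 2)) := measure_union_le _ _
    _ < ENNReal.ofReal (δ / 2) + ENNReal.ofReal (δ / 2) :=
        ENNReal.add_lt_add (hN _ (by omega)) (hN _ (by omega))
    _ = ENNReal.ofReal δ := by
        rw [← ENNReal.ofReal_add (by positivity) (by positivity)]; congr 1; ring

/-- bad set -/
def bad (n : ℕ) (δ η : ℝ) : Set (ℝ × (ℝ × ℝ)) := WS (n + 1) δ ∪ G ⁻¹' (WS n δ) ∪ SS η

lemma measurableSet_bad (n : ℕ) (δ η : ℝ) : MeasurableSet (bad n δ η) := by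
  refine ((measurableSet_WS _ _).union ?_).union (measurableSet_SS _)
  by_cases h : True
  · exact (mp_G 0).measurable (measurableSet_WS _ _)
  · exact absurd trivial h

lemma of_notMem_bad {n : ℕ} {δ η : ℝ} (hδ : 0 < δ) (hη : 0 < η) {p : ℝ × (ℝ × ℝ)}
    (hp : p ∉ bad n δ η) :
    ‖M n p.1 (T p.1 p.2) (1, 1)‖ ≤ 2 / η * Real.exp (δ * (n + 1)) ∧
    ‖M (n + 1) p.1 p.2 (0, 1)‖ ≤ 2 / η * Real.exp (δ * (n + 1)) := by
  unfold bad at hp
  rw [mem_union, mem_union, not_or, not_or] at hp
  obtain ⟨⟨h1, h2⟩, h3⟩ := hp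
  set k := p.1
  set z := p.2
  have h1' : ‖w (n + 1) k z‖ < Real.exp (δ * ((n + 1 : ℕ) : ℝ)) := not_le.1 h1
  have h2' : ‖w n k (T k z)‖ < Real.exp (δ * (n : ℝ)) := not_le.1 h2
  have h3' : η ≤ |Real.sin (2 * Real.pi * z.1)| := not_lt.1 h3
  set s := Real.sin (2 * Real.pi * z.1) with hs
  have hmono : Real.exp (δ * (n : ℝ)) ≤ Real.exp (δ * ((n : ℝ) + 1)) := by
    apply Real.exp_le_exp.2
    linarith
  push_cast at h1'
  have hw := w_add 1 n k z
  rw [Function.iterate_one, w_one, w_F, M_F, add_comm 1 n] at hw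
  have hb : (s, s) = s • ((1, 1) : ℝ × ℝ) := by ext <;> simp
  have hMb : s • M n k (T k z) (1, 1) = w (n + 1) k z - w n k (T k z) := by
    rw [hw, hb, map_smul]; abel
  have hnorm : |s| * ‖M n k (T k z) (1, 1)‖ ≤ 2 * Real.exp (δ * (n + 1)) := by
    rw [← Real.norm_eq_abs, ← norm_smul, hMb]
    have := norm_sub_le (w (n + 1) k z) (w n k (T k z))
    linarith
  have hfirst : ‖M n k (T k z) (1, 1)‖ ≤ 2 / η * Real.exp (δ * (n + 1)) := by
    rw [div_mul_eq_mul_div, le_div_iff₀ hη]
    calc ‖M n k (T k z) (1, 1)‖ * η ≤ ‖M n k (T k z) (1, 1)‖ * |s| := by (clear * - h3'; gcongr)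
      _ = |s| * ‖M n k (T k z) (1, 1)‖ := mul_comm _ _
      _ ≤ _ := hnorm
  refine ⟨hfirst, ?_⟩
  have hM : M (n + 1) k z (0, 1) = M n k (T k z) (1, 1) := by
    rw [add_comm n 1, M_add, Function.iterate_one, ContinuousLinearMap.comp_apply, M_one, A_apply,
      M_F]
    congr 1
    ext <;> simp
  rw [hM]
  exact hfirst

/-- The other direction. -/
lemma M_of_W {R : ℝ} (h : ∀ δ : ℝ, 0 < δ → ∀ᶠ n : ℕ in atTop, nu R (WS n δ) < ENNReal.ofReal δ) :
    ∀ δ : ℝ, 0 < δ → ∀ᶠ n : ℕ in atTop, nu R (GS n δ) < ENNReal.ofReal δ := by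
  intro δ0 hδ0
  set δ := δ0 / 8 with hδdef
  have hδ : 0 < δ := by (clear * - hδ0; positivity)
  obtain ⟨η, hη, hSS⟩ := exists_SS_small R hδ
  obtain ⟨N, hN⟩ := eventually_atTop.1 (h δ hδ)
  have hexp : Tendsto (fun n : ℕ => Real.exp (δ * (n : ℝ))) atTop atTop :=
    Real.tendsto_exp_atTop.comp (tendsto_natCast_atTop_atTop.const_mul_atTop hδ)
  filter_upwards [eventually_ge_atTop (N + 2),
    hexp.eventually_gt_atTop (6 / η * Real.exp (2 * δ))] with m hm hm2
  obtain ⟨n, rfl⟩ : ∃ n, m = n + 1 := ⟨m - 1, by omega⟩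
  have hsub : G ⁻¹' (GS (n + 1) δ0) ⊆ bad (n + 1) δ η ∪ G ⁻¹' (bad n δ η) := by
    intro p hp
    by_contra hcon
    rw [mem_union, not_or] at hcon
    obtain ⟨hc1, hc2⟩ := hcon
    have h1 := (of_notMem_bad hδ hη hc1).1
    have h2 := (of_notMem_bad hδ hη (p := G p) hc2).2
    simp only [G] at h2
    set L := M (n + 1) p.1 (T p.1 p.2) with hL
    have h3 : Real.exp (δ0 * ((n + 1 : ℕ) : ℝ)) ≤ ‖L‖ := hp
    have h4 : ‖L (1, 0)‖ ≤ ‖L (1, 1)‖ + ‖L (0, 1)‖ := by
      have : L (1, 0) = L (1, 1) - L (0, 1) := by rw [← map_sub]; simp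
      rw [this]; exact norm_sub_le _ _
    have h5 : ‖L‖ ≤ ‖L (1, 0)‖ + ‖L (0, 1)‖ := by
      refine ContinuousLinearMap.opNorm_le_bound _ (by (clear * -; positivity)) fun v => ?_
      rw [L_apply L v]
      have hv1 : ‖v.1‖ ≤ ‖v‖ := norm_fst_le v
      have hv2 : ‖v.2‖ ≤ ‖v‖ := norm_snd_le v
      calc ‖v.1 • L (1, 0) + v.2 • L (0, 1)‖ ≤ ‖v.1 • L (1, 0)‖ + ‖v.2 • L (0, 1)‖ :=
            norm_add_le _ _
        _ = ‖v.1‖ * ‖L (1, 0)‖ + ‖v.2‖ * ‖L (0, 1)‖ := by rw [norm_smul, norm_smul]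
        _ ≤ ‖v‖ * ‖L (1, 0)‖ + ‖v‖ * ‖L (0, 1)‖ := by (clear * - hv1 hv2; gcongr)
        _ = (‖L (1, 0)‖ + ‖L (0, 1)‖) * ‖v‖ := by ring
    have e1 : Real.exp (δ * (((n + 1 : ℕ) : ℝ) + 1)) = Real.exp (δ * n) * Real.exp (2 * δ) := by
      rw [← Real.exp_add]; congr 1; push_cast; ring
    have e2 : Real.exp (δ * ((n : ℝ) + 1)) ≤ Real.exp (δ * n) * Real.exp (2 * δ) := by
      rw [← Real.exp_add]; apply Real.exp_le_exp.2; nlinarith only [hδ]
    rw [e1] at h1
    have hη' : 0 < 2 / η := by (clear * - hη; positivity)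
    have h2' : ‖L (0, 1)‖ ≤ 2 / η * (Real.exp (δ * n) * Real.exp (2 * δ)) :=
      h2.trans (mul_le_mul_of_nonneg_left e2 hη'.le)
    have h6 : ‖L‖ ≤ 6 / η * Real.exp (2 * δ) * Real.exp (δ * n) := by
      calc ‖L‖ ≤ ‖L (1, 1)‖ + 2 * ‖L (0, 1)‖ := by linarith only [h4, h5]
        _ ≤ 2 / η * (Real.exp (δ * n) * Real.exp (2 * δ))
            + 2 * (2 / η * (Real.exp (δ * n) * Real.exp (2 * δ))) := by linarith only [h1, h2']
        _ = 6 / η * Real.exp (2 * δ) * Real.exp (δ * n) := by ring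
    have e3 : Real.exp (δ * n) ≤ Real.exp (δ * ((n + 1 : ℕ) : ℝ)) := by
      apply Real.exp_le_exp.2; push_cast; nlinarith only [hδ]
    have e4 : Real.exp (δ * ((n + 1 : ℕ) : ℝ)) * Real.exp (δ * ((n + 1 : ℕ) : ℝ))
        ≤ Real.exp (δ0 * ((n + 1 : ℕ) : ℝ)) := by
      rw [← Real.exp_add]
      apply Real.exp_le_exp.2
      have : 0 ≤ ((n + 1 : ℕ) : ℝ) := by (clear * -; positivity)
      rw [hδdef]
      nlinarith only [hδ0]
    have hpos := Real.exp_pos (δ * n)
    have hpos2 := Real.exp_pos (δ * ((n + 1 : ℕ) : ℝ))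
    have h7 : 6 / η * Real.exp (2 * δ) * Real.exp (δ * n)
        < Real.exp (δ * ((n + 1 : ℕ) : ℝ)) * Real.exp (δ * ((n + 1 : ℕ) : ℝ)) := by
      calc 6 / η * Real.exp (2 * δ) * Real.exp (δ * n)
          < Real.exp (δ * ((n + 1 : ℕ) : ℝ)) * Real.exp (δ * n) := by
            apply mul_lt_mul_of_pos_right hm2 hpos
        _ ≤ _ := by (clear * - e3; gcongr)
    linarith only [h3, h6, e4, h7]
  have hbad : ∀ j, N ≤ j → nu R (bad j δ η) < ENNReal.ofReal (3 * δ) := by
    intro j hj
    calc nu R (bad j δ η)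
        ≤ nu R (WS (j + 1) δ ∪ G ⁻¹' (WS j δ)) + nu R (SS η) := measure_union_le _ _
      _ ≤ (nu R (WS (j + 1) δ) + nu R (G ⁻¹' (WS j δ))) + nu R (SS η) := by
          gcongr; exact measure_union_le _ _
      _ < (ENNReal.ofReal δ + ENNReal.ofReal δ) + ENNReal.ofReal δ := by
          rw [nu_G R (measurableSet_WS _ _)]
          exact ENNReal.add_lt_add (ENNReal.add_lt_add (hN _ (by omega)) (hN _ hj)) hSS
      _ = ENNReal.ofReal (3 * δ) := by
          rw [← ENNReal.ofReal_add hδ.le hδ.le, ← ENNReal.ofReal_add (by positivity) hδ.le]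
          congr 1; ring
  calc nu R (GS (n + 1) δ0) = nu R (G ⁻¹' (GS (n + 1) δ0)) := (nu_G R (measurableSet_GS _ _)).symm
    _ ≤ nu R (bad (n + 1) δ η ∪ G ⁻¹' (bad n δ η)) := measure_mono hsub
    _ ≤ nu R (bad (n + 1) δ η) + nu R (G ⁻¹' (bad n δ η)) := measure_union_le _ _
    _ = nu R (bad (n + 1) δ η) + nu R (bad n δ η) := by rw [nu_G R (measurableSet_bad _ _ _)]
    _ < ENNReal.ofReal (3 * δ) + ENNReal.ofReal (3 * δ) :=
        ENNReal.add_lt_add (hbad _ (by omega)) (hbad _ (by omega))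
    _ ≤ ENNReal.ofReal δ0 := by
        rw [← ENNReal.ofReal_add (by positivity) (by positivity)]
        apply ENNReal.ofReal_le_ofReal
        rw [hδdef]; linarith only [hδ0]

/-- Sinai's statement is equivalent to exponential growth, on a set of positive measure and for
infinitely many times, of the derivative of the orbit with respect to the parameter. -/
theorem param_iff : 0 < volume E ↔ ∃ R δ : ℝ, 0 < δ ∧
    ∃ᶠ n : ℕ in atTop, ENNReal.ofReal δ ≤ nu R (XS n δ) := by
  constructor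
  · intro hE
    obtain ⟨R, δ0, hδ0, hfr⟩ := phase_iff.1 hE
    by_contra hcon
    push Not at hcon
    have h1 : ∀ δ : ℝ, 0 < δ → ∀ᶠ n : ℕ in atTop, nu R (XS n δ) < ENNReal.ofReal δ := by
      intro δ hδ
      have := hcon R δ hδ
      simpa only [not_le] using this
    have h2 := M_of_W (W_of_X h1) δ0 hδ0
    obtain ⟨n, h3, h4⟩ := (hfr.and_eventually h2).exists
    exact absurd h3 (not_le.2 h4)
  · rintro ⟨R, δ, hδ, hfr⟩
    exact pos_of_param hδ hfr

end Vale.Agent.P108
end
end
end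

section

section

section

open MeasureTheory Filter Set Topology

namespace Vale.Agent.P108

/-- the closed level sets -/
def lev (j : ℕ) : Set ℝ := {k | 1 / ((j : ℝ) + 1) ≤ ent k}

lemma isClosed_lev (j : ℕ) : IsClosed (lev j) :=
  upperSemicontinuous_ent.isClosed_preimage _

lemma E_eq_iUnion : E = ⋃ j, lev j := by
  ext k
  simp only [E, lev, mem_ofPred_eq, mem_iUnion]
  constructor
  · intro h
    obtain ⟨j, hj⟩ := exists_nat_one_div_lt h
    exact ⟨j, hj.le⟩
  · rintro ⟨j, hj⟩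
    have : (0 : ℝ) < 1 / ((j : ℝ) + 1) := by (clear * -; positivity)
    linarith only [hj, this]

lemma baire_E (h : ¬ IsMeagre E) :
    ∃ a b δ : ℝ, a < b ∧ 0 < δ ∧ ∀ k ∈ Ioo a b, δ ≤ ent k := by
  by_contra hcon
  push Not at hcon
  apply h
  rw [E_eq_iUnion]
  refine isMeagre_iUnion fun j => ?_
  refine IsNowhereDense.isMeagre ?_
  rw [(isClosed_lev j).isNowhereDense_iff]
  by_contra hne
  obtain ⟨k, hk⟩ := nonempty_iff_ne_empty.2 hne
  obtain ⟨ε, hε, hball⟩ := Metric.mem_nhds_iff.1 (mem_interior_iff_mem_nhds.1 hk)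
  rw [Real.ball_eq_Ioo] at hball
  obtain ⟨x, hx, hlt⟩ := hcon (k - ε) (k + ε) (1 / ((j : ℝ) + 1)) (by linarith only [hε]) (by (clear * -; positivity))
  exact absurd (hball hx) (not_le.2 hlt)

lemma uniform_iff : 0 < volume E ↔ ∃ (K : Set ℝ) (δ : ℝ), IsCompact K ∧ 0 < volume K ∧ 0 < δ ∧
    ∀ k ∈ K, ∀ n : ℕ, δ * n ≤ u n k := by
  constructor
  · intro h
    obtain ⟨R, hR, hE⟩ := volume_E_pos_iff.1 h
    have hj : ∃ j, 0 < volume (lev j ∩ Icc (-R) R) := by
      by_contra hcon
      push Not at hcon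
      have h0 : volume (⋃ j, lev j ∩ Icc (-R) R) = 0 := by
        rw [measure_iUnion_null_iff]
        intro j
        exact le_antisymm (hcon j) bot_le
      rw [← iUnion_inter, ← E_eq_iUnion] at h0
      exact hE.ne' h0
    obtain ⟨j, hj⟩ := hj
    refine ⟨lev j ∩ Icc (-R) R, 1 / ((j : ℝ) + 1), isCompact_Icc.inter_left (isClosed_lev j), hj,
      by (clear * -; positivity), ?_⟩
    rintro k ⟨hk, -⟩ n
    rcases Nat.eq_zero_or_pos n with rfl | hn
    · have h0 : 0 ≤ u 0 k := integral_nonneg (g_nonneg k 0)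
      simpa only [one_div, CharP.cast_eq_zero, mul_zero, ge_iff_le] using h0
    · have hn' : (0 : ℝ) < n := by exact_mod_cast hn
      have h1 := ent_le_u hn k
      rw [le_div_iff₀ hn'] at h1
      have h2 : (1 / ((j : ℝ) + 1)) * n ≤ ent k * n := by
        apply mul_le_mul_of_nonneg_right _ hn'.le
        exact hk
      linarith only [h1, h2]
  · rintro ⟨K, δ, -, hK, hδ, h⟩
    refine hK.trans_le (measure_mono fun k hk => ?_)
    have h1 : δ ≤ ent k := by
      refine ge_of_tendsto (tendsto_u k) ?_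
      filter_upwards [eventually_ge_atTop 1] with n hn
      have hn' : (0 : ℝ) < n := by exact_mod_cast hn
      rw [le_div_iff₀ hn']
      exact h k hk n
    exact hδ.trans_le h1

/-- Main structure and reduction theorem. -/
theorem main :
    (∀ k, 0 < ent k ↔ 0 < volume {z | z ∈ Q ∧ 0 < lyap k z}) ∧
    (∀ k, Tendsto (fun n : ℕ => (∫ z in Q, Real.log ‖fderiv ℝ (F k)^[n] z‖) / n) atTop
      (𝓝 (ent k))) ∧
    (∀ k, 0 ≤ ent k ∧ ent k ≤ 2 * Real.arsinh (√(2 * Real.pi * |k|) / 2)) ∧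
    UpperSemicontinuous ent ∧
    (∃ S : ℕ → Set ℝ, (∀ j, IsClosed (S j)) ∧ {k | 0 < ent k} = ⋃ j, S j) ∧
    (¬ IsMeagre {k | 0 < ent k} →
      ∃ a b δ : ℝ, a < b ∧ 0 < δ ∧ ∀ k ∈ Ioo a b, δ ≤ ent k) ∧
    List.TFAE [
      0 < volume {k | 0 < ent k},
      ∃ (K : Set ℝ) (δ : ℝ), IsCompact K ∧ 0 < volume K ∧ 0 < δ ∧
        ∀ k ∈ K, ∀ n : ℕ, δ * n ≤ ∫ z in Q, Real.log ‖fderiv ℝ (F k)^[n] z‖,
      ∃ R δ : ℝ, 0 < δ ∧ ∃ᶠ n : ℕ in atTop,
        ENNReal.ofReal δ ≤ volume {p : ℝ × (ℝ × ℝ) |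
          |p.1| ≤ R ∧ p.2 ∈ Q ∧ Real.exp (δ * n) ≤ ‖fderiv ℝ (F p.1)^[n] p.2‖},
      ∃ R δ : ℝ, 0 < δ ∧ ∃ᶠ n : ℕ in atTop,
        ENNReal.ofReal δ ≤ volume {p : ℝ × (ℝ × ℝ) |
          |p.1| ≤ R ∧ p.2 ∈ Q ∧
            Real.exp (δ * n) ≤ |deriv (fun κ => ((F κ)^[n] p.2).1) p.1|}] := by
  refine ⟨ent_pos_iff, tendsto_u, fun k => ⟨ent_nonneg k, ent_le_arsinh k⟩,
    upperSemicontinuous_ent, ⟨lev, isClosed_lev, E_eq_iUnion⟩, baire_E, ?_⟩
  have h2 := uniform_iff
  have h3 := phase_iff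
  have h4 := param_iff
  simp only [nu_apply _ (measurableSet_GS _ _)] at h3
  simp only [nu_apply _ (measurableSet_XS _ _)] at h4
  tfae_have 1 ↔ 2 := h2
  tfae_have 1 ↔ 3 := h3
  tfae_have 1 ↔ 4 := h4
  tfae_finish

end Vale.Agent.P108
end
end
end

section

section

section

open MeasureTheory Filter Set Topology

namespace Vale.Agent.P108.FT

lemma sin_ge_half {u : ℝ} (h0 : 0 ≤ u) (h1 : u ≤ Real.pi) (hc : |Real.cos u| ≤ 1 / 2) :
    1 / 2 ≤ Real.sin u := by
  have hs := Real.sin_nonneg_of_nonneg_of_le_pi h0 h1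
  have h2 := Real.sin_sq_add_cos_sq u
  have h3 : Real.cos u ^ 2 ≤ 1 / 4 := by
    rw [← sq_abs]; nlinarith only [hc, abs_nonneg (Real.cos u)]
  nlinarith only [h2, h3, hs]

lemma cos_sub_ge {u v : ℝ} (hu0 : 0 ≤ u) (hu1 : u ≤ Real.pi) (hv0 : 0 ≤ v) (hv1 : v ≤ Real.pi)
    (hcu : |Real.cos u| ≤ 1 / 2) (hcv : |Real.cos v| ≤ 1 / 2) :
    |u - v| / Real.pi ≤ |Real.cos u - Real.cos v| := by
  have hπ := Real.pi_pos
  have hsu := sin_ge_half hu0 hu1 hcu
  have hsv := sin_ge_half hv0 hv1 hcv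
  have h1 : 0 ≤ Real.sin ((u + v) / 2) :=
    Real.sin_nonneg_of_nonneg_of_le_pi (by linarith only [hu0, hv0]) (by linarith only [hu1, hv1])
  have h2 : Real.sin u + Real.sin v = 2 * (Real.sin ((u + v) / 2) * Real.cos ((u - v) / 2)) := by
    rw [Real.sin_add_sin]; ring
  have h3 : Real.cos ((u - v) / 2) ≤ 1 := Real.cos_le_one _
  have h4 : 1 / 2 ≤ Real.sin ((u + v) / 2) := by nlinarith only [hsu, hsv, h2, h1, h3]
  rw [Real.cos_sub_cos, abs_mul, abs_mul, abs_neg, abs_two, abs_of_nonneg h1]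
  have h5 : |(u - v) / 2| ≤ Real.pi / 2 := by
    rw [abs_le]; constructor <;> linarith only [hu0, hv1, hu1, hv0]
  have h6 : 2 / Real.pi * |(u - v) / 2| ≤ |Real.sin ((u - v) / 2)| := Real.mul_abs_le_abs_sin h5
  have h7 : 2 / Real.pi * |(u - v) / 2| = |u - v| / Real.pi := by
    rw [abs_div, abs_two]; field_simp
  rw [h7] at h6
  have h8 : 0 ≤ |Real.sin ((u - v) / 2)| := abs_nonneg _
  nlinarith only [h6, h4, h8]

lemma cos_small {k x t : ℝ} (hk : 1 ≤ |k|) (ht : t ≤ |k|) (h : |a k x| ≤ t) :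
    |Real.cos (2 * Real.pi * x)| ≤ 1 / 2 := by
  unfold a at h
  have hπ := Real.pi_gt_three
  have h1 : |2 * Real.pi * k * Real.cos (2 * Real.pi * x)| ≤ t + 2 := by
    have := abs_sub (2 + 2 * Real.pi * k * Real.cos (2 * Real.pi * x)) 2
    rw [add_sub_cancel_left, abs_two] at this
    linarith
  rw [abs_mul, abs_mul, abs_mul, abs_two, abs_of_pos Real.pi_pos] at h1
  by_contra hc
  push Not at hc
  have h2 : 2 * Real.pi * |k| * (1 / 2) < 2 * Real.pi * |k| * |Real.cos (2 * Real.pi * x)| := by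
    apply mul_lt_mul_of_pos_left hc
    positivity
  nlinarith only [hk, ht, hπ, h1, h2]

lemma a_sub_ge {k x y t : ℝ} (hk : 1 ≤ |k|) (ht : t ≤ |k|) (hx : |a k x| ≤ t) (hy : |a k y| ≤ t)
    (hx0 : 0 ≤ x) (hx1 : x ≤ 1 / 2) (hy0 : 0 ≤ y) (hy1 : y ≤ 1 / 2) :
    |x - y| ≤ t / (2 * |k|) := by
  have hπ := Real.pi_pos
  have h1 := cos_sub_ge (u := 2 * Real.pi * x) (v := 2 * Real.pi * y) (by (clear * - hx0; positivity))
    (by nlinarith only [hx1, hπ]) (by positivity) (by nlinarith only [hy1, hπ]) (cos_small hk ht hx) (cos_small hk ht hy)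
  have h2 : |2 * Real.pi * x - 2 * Real.pi * y| / Real.pi = 2 * |x - y| := by
    rw [← mul_sub, abs_mul, abs_mul, abs_two, abs_of_pos hπ]; field_simp
  rw [h2] at h1
  have h3 : |a k x - a k y| ≤ 2 * t := by
    have := abs_sub (a k x) (a k y); linarith only [hx, hy, this]
  have h4 : |a k x - a k y|
      = 2 * Real.pi * |k| * |Real.cos (2 * Real.pi * x) - Real.cos (2 * Real.pi * y)| := by
    unfold a
    rw [show 2 + 2 * Real.pi * k * Real.cos (2 * Real.pi * x)
      - (2 + 2 * Real.pi * k * Real.cos (2 * Real.pi * y))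
      = 2 * Real.pi * k * (Real.cos (2 * Real.pi * x) - Real.cos (2 * Real.pi * y)) by ring,
      abs_mul, abs_mul, abs_mul, abs_two, abs_of_pos hπ]
  rw [h4] at h3
  rw [le_div_iff₀ (by positivity)]
  have h5 : 2 * Real.pi * |k| * (2 * |x - y|) ≤ 2 * t :=
    (mul_le_mul_of_nonneg_left h1 (by positivity)).trans h3
  have hπ3 := Real.pi_gt_three
  have h6 : 0 ≤ |k| * |x - y| := by (clear * - hk; positivity)
  nlinarith only [h5, h6, hπ3]

lemma a_reflect (k x : ℝ) : a k (1 - x) = a k x := by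
  unfold a
  rw [show 2 * Real.pi * (1 - x) = 2 * Real.pi - 2 * Real.pi * x by ring, Real.cos_two_pi_sub]

/-- sublevel sets of `|a|` -/
def E1 (k t : ℝ) : Set ℝ := {x | |a k x| ≤ t}

lemma measurableSet_E1 (k t : ℝ) : MeasurableSet (E1 k t) :=
  measurableSet_le (continuous_a k).measurable.abs measurable_const

lemma volume_E1 {k t : ℝ} (hk : 1 ≤ |k|) (ht0 : 0 ≤ t) :
    (volume.restrict (Ico (0 : ℝ) 1)) (E1 k t) ≤ ENNReal.ofReal (t / |k|) := by
  rcases le_or_gt t |k| with ht | ht
  · rw [Measure.restrict_apply (measurableSet_E1 k t)]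
    have hsub : E1 k t ∩ Ico (0 : ℝ) 1 ⊆ (E1 k t ∩ Icc 0 (1 / 2)) ∪ (E1 k t ∩ Icc (1 / 2) 1) := by
      rintro x ⟨h1, h2, h3⟩
      rcases le_total x (1 / 2) with h | h
      · exact Or.inl ⟨h1, h2, h⟩
      · exact Or.inr ⟨h1, h, h3.le⟩
    have hd1 : volume (E1 k t ∩ Icc 0 (1 / 2)) ≤ ENNReal.ofReal (t / (2 * |k|)) := by
      refine (Real.volume_le_diam _).trans (Metric.ediam_le ?_)
      rintro x ⟨hx, hx0, hx1⟩ y ⟨hy, hy0, hy1⟩
      rw [edist_dist, Real.dist_eq]
      exact ENNReal.ofReal_le_ofReal (a_sub_ge hk ht hx hy hx0 hx1 hy0 hy1)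
    have hd2 : volume (E1 k t ∩ Icc (1 / 2) 1) ≤ ENNReal.ofReal (t / (2 * |k|)) := by
      refine (Real.volume_le_diam _).trans (Metric.ediam_le ?_)
      rintro x ⟨hx, hx0, hx1⟩ y ⟨hy, hy0, hy1⟩
      rw [edist_dist, Real.dist_eq]
      apply ENNReal.ofReal_le_ofReal
      have hx' : |a k (1 - x)| ≤ t := by rw [a_reflect]; exact hx
      have hy' : |a k (1 - y)| ≤ t := by rw [a_reflect]; exact hy
      have := a_sub_ge hk ht hx' hy' (by linarith only [hx1]) (by linarith only [hx0]) (by linarith only [hy1]) (by linarith only [hy0])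
      rwa [show 1 - x - (1 - y) = -(x - y) by ring, abs_neg] at this
    calc volume (E1 k t ∩ Ico (0 : ℝ) 1)
        ≤ volume ((E1 k t ∩ Icc 0 (1 / 2)) ∪ (E1 k t ∩ Icc (1 / 2) 1)) := measure_mono hsub
      _ ≤ volume (E1 k t ∩ Icc 0 (1 / 2)) + volume (E1 k t ∩ Icc (1 / 2) 1) :=
          measure_union_le _ _
      _ ≤ ENNReal.ofReal (t / (2 * |k|)) + ENNReal.ofReal (t / (2 * |k|)) := add_le_add hd1 hd2
      _ = ENNReal.ofReal (t / |k|) := by
          rw [← ENNReal.ofReal_add (by positivity) (by positivity)]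
          congr 1
          field_simp
          norm_num
  · calc (volume.restrict (Ico (0 : ℝ) 1)) (E1 k t) ≤ 1 := prob_le_one
      _ = ENNReal.ofReal 1 := by simp
      _ ≤ ENNReal.ofReal (t / |k|) := by
          apply ENNReal.ofReal_le_ofReal
          rw [le_div_iff₀ (by linarith only [hk])]
          linarith

/-- pairs with a small product -/
def pp (k B : ℝ) : Set (ℝ × ℝ) := {z | |a k z.1 * a k z.2| < B}

lemma measurableSet_pp (k B : ℝ) : MeasurableSet (pp k B) := by
  refine measurableSet_lt ?_ measurable_const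
  exact (((continuous_a k).measurable.comp measurable_fst).mul
    ((continuous_a k).measurable.comp measurable_snd)).abs

lemma mQ_bp (k B : ℝ) : mQ (bp k B) = mQ (pp k B) := by
  have hΦ : MeasurePreserving (fun z : ℝ × ℝ =>
      (z.1, Int.fract (z.2 + (z.1 + k * Real.sin (2 * Real.pi * z.1))))) mQ mQ := by
    rw [mQ_eq]
    refine MeasurePreserving.skew_product (f := id)
      (g := fun x y => Int.fract (y + (x + k * Real.sin (2 * Real.pi * x))))
      (MeasurePreserving.id _) ?_ (Eventually.of_forall fun x => (mp_fract_add _).map_eq)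
    unfold Function.uncurry
    fun_prop
  rw [← hΦ.measure_preimage (measurableSet_pp k B).nullMeasurableSet]
  congr 1
  ext z
  simp only [bp, pp, mem_ofPred_eq, mem_preimage, T, F]
  rw [show z.2 + (z.1 + k * Real.sin (2 * Real.pi * z.1))
    = z.1 + z.2 + k * Real.sin (2 * Real.pi * z.1) by ring]

lemma mQ_prod_le {k s t : ℝ} (hk : 1 ≤ |k|) (hs : 0 ≤ s) (ht : 0 ≤ t) :
    mQ (E1 k s ×ˢ E1 k t) ≤ ENNReal.ofReal (s / |k| * (t / |k|)) := by
  rw [mQ_eq, Measure.prod_prod, ENNReal.ofReal_mul (by positivity)]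
  exact mul_le_mul' (volume_E1 hk hs) (volume_E1 hk ht)

lemma mQ_pp {k B : ℝ} (hk : 1 ≤ |k|) (hB : 0 ≤ B) {m : ℕ} (hm : 9 * k ^ 2 ≤ 2 ^ m) :
    mQ (pp k B) ≤ ENNReal.ofReal ((1 + 2 * B * m) / k ^ 2) := by
  have hkpos : 0 < |k| := by linarith
  set t0 : ℝ := 1 / |k| with ht0
  have ht0pos : 0 < t0 := by positivity
  have hsub : pp k B ⊆ (E1 k t0 ×ˢ univ) ∪ ⋃ i ∈ Finset.range m,
      (E1 k (2 ^ (i + 1) * t0) ×ˢ E1 k (B / (2 ^ i * t0))) := by
    intro z hz
    have hz' : |a k z.1| * |a k z.2| < B := by rw [← abs_mul]; exact hz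
    rcases le_or_gt |a k z.1| t0 with h | h
    · exact Or.inl ⟨h, mem_univ _⟩
    · right
      have hmax : |a k z.1| ≤ 2 ^ m * t0 := by
        have h1 := abs_a_le k z.1
        have h2 : 2 + 2 * Real.pi * |k| ≤ 9 * |k| := by
          have := Real.pi_lt_d2
          nlinarith only [hk, this]
        have h3 : 9 * |k| ≤ 2 ^ m * t0 := by
          rw [ht0, mul_one_div, le_div_iff₀ hkpos]
          have : |k| * |k| = k ^ 2 := by rw [← sq, sq_abs]
          linarith
        linarith only [h1, h2, h3]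
      have hm0 : m ≠ 0 := by
        rintro rfl
        rw [pow_zero, one_mul] at hmax
        linarith only [h, hmax]
      have hex : ∃ i, |a k z.1| ≤ 2 ^ (i + 1) * t0 :=
        ⟨m - 1, by rwa [Nat.sub_add_cancel (Nat.one_le_iff_ne_zero.2 hm0)]⟩
      classical
      set i := Nat.find hex with hi
      have hi1 : |a k z.1| ≤ 2 ^ (i + 1) * t0 := Nat.find_spec hex
      have hi2 : 2 ^ i * t0 < |a k z.1| := by
        rcases Nat.eq_zero_or_pos i with h0 | h0
        · rw [h0, pow_zero, one_mul]; exact h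
        · have := Nat.find_min hex (show i - 1 < Nat.find hex by omega)
          rw [Nat.sub_add_cancel h0] at this
          exact not_le.1 this
      have him : i < m := by
        have h4 : i ≤ m - 1 := Nat.find_min' hex (by
          rwa [Nat.sub_add_cancel (Nat.one_le_iff_ne_zero.2 hm0)])
        omega
      simp only [mem_iUnion, Finset.mem_range]
      refine ⟨i, him, hi1, ?_⟩
      show |a k z.2| ≤ B / (2 ^ i * t0)
      have hpos : 0 < 2 ^ i * t0 := by positivity
      rw [le_div_iff₀ hpos]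
      have := abs_nonneg (a k z.2)
      nlinarith only [hB, hi2, hz', hpos]
  have hkk : |k| * |k| = k ^ 2 := by rw [← sq, sq_abs]
  calc mQ (pp k B) ≤ mQ ((E1 k t0 ×ˢ univ) ∪ ⋃ i ∈ Finset.range m,
      (E1 k (2 ^ (i + 1) * t0) ×ˢ E1 k (B / (2 ^ i * t0)))) := measure_mono hsub
    _ ≤ mQ (E1 k t0 ×ˢ univ) + mQ (⋃ i ∈ Finset.range m,
      (E1 k (2 ^ (i + 1) * t0) ×ˢ E1 k (B / (2 ^ i * t0)))) := measure_union_le _ _
    _ ≤ ENNReal.ofReal (1 / k ^ 2) + ∑ i ∈ Finset.range m, ENNReal.ofReal (2 * B / k ^ 2) := by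
        gcongr
        · rw [mQ_eq, Measure.prod_prod, measure_univ, mul_one]
          refine (volume_E1 hk ht0pos.le).trans (le_of_eq ?_)
          congr 1
          rw [ht0, div_div, hkk]
        · refine (measure_biUnion_finset_le _ _).trans (Finset.sum_le_sum fun i _ => ?_)
          refine (mQ_prod_le hk (by positivity) (by positivity)).trans (le_of_eq ?_)
          congr 1
          rw [← hkk]
          field_simp
          ring
    _ = ENNReal.ofReal ((1 + 2 * B * m) / k ^ 2) := by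
        rw [Finset.sum_const, Finset.card_range, nsmul_eq_mul, ← ENNReal.ofReal_natCast,
          ← ENNReal.ofReal_mul (by positivity), ← ENNReal.ofReal_add (by (clear * -; positivity))
          (by (clear * - hB; positivity))]
        congr 1
        ring

lemma real_bp {k B : ℝ} (hk : 1 ≤ |k|) (hB : 0 ≤ B) {m : ℕ} (hm : 9 * k ^ 2 ≤ 2 ^ m) :
    mQ.real (bp k B) ≤ (1 + 2 * B * m) / k ^ 2 := by
  rw [measureReal_def, mQ_bp]
  exact ENNReal.toReal_le_of_le_ofReal (by positivity) (mQ_pp hk hB hm)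

/-- quantitative measure bound with a logarithm -/
lemma real_bp_log {k η : ℝ} (hk : 2 ≤ |k|) (hη : 0 < η) (hη2 : η ≤ 1 / 2) :
    mQ.real (bp k (2 / η)) ≤ 49 * Real.log |k| / (η * k ^ 2) := by
  have hkpos : 0 < |k| := by linarith only [hk]
  have hk2 : 0 < k ^ 2 := by rw [← sq_abs]; positivity
  have hlog2 := Real.log_two_gt_d9
  have hlogk : Real.log 2 ≤ Real.log |k| := Real.log_le_log (by norm_num) hk
  set m := ⌈Real.log (9 * k ^ 2) / Real.log 2⌉₊ with hm
  have hlog2pos : 0 < Real.log 2 := by linarith only [hlog2]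
  have h9 : Real.log (9 * k ^ 2) = Real.log 9 + 2 * Real.log |k| := by
    rw [Real.log_mul (by norm_num) hk2.ne', ← sq_abs, Real.log_pow]
    push_cast; ring
  have hlog9 : Real.log 9 ≤ 4 * Real.log 2 := by
    have : Real.log 9 ≤ Real.log (2 ^ 4) := Real.log_le_log (by norm_num) (by norm_num)
    rw [Real.log_pow] at this
    exact_mod_cast this
  have hmge : 9 * k ^ 2 ≤ 2 ^ m := by
    have h1 : Real.log (9 * k ^ 2) / Real.log 2 ≤ m := Nat.le_ceil _
    rw [div_le_iff₀ hlog2pos] at h1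
    have h2 : Real.log (9 * k ^ 2) ≤ Real.log (2 ^ m) := by rw [Real.log_pow]; exact h1
    exact (Real.log_le_log_iff (by positivity) (by positivity)).1 h2
  have hmle : (m : ℝ) ≤ 12 * Real.log |k| := by
    have h1 : (m : ℝ) < Real.log (9 * k ^ 2) / Real.log 2 + 1 := by
      apply Nat.ceil_lt_add_one
      apply div_nonneg _ hlog2pos.le
      rw [h9]
      have : 0 ≤ Real.log 9 := Real.log_nonneg (by norm_num)
      linarith only [hlog2, hlogk, this]
    have h2 : Real.log (9 * k ^ 2) / Real.log 2 ≤ 11 * Real.log |k| - 1 := by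
      rw [div_le_iff₀ hlog2pos, h9]
      nlinarith only [hlogk, hlog9, hlog2]
    linarith only [h1, h2]
  have h1 := real_bp (k := k) (B := 2 / η) (by linarith only [hk]) (by positivity) hmge
  refine h1.trans ?_
  rw [div_le_div_iff₀ hk2 (by positivity)]
  have h2 : 2 * (2 / η) * (m : ℝ) * (η * k ^ 2) = 4 * m * k ^ 2 := by field_simp; ring
  have h3 : (1 + 2 * (2 / η) * m) * (η * k ^ 2) = η * k ^ 2 + 4 * m * k ^ 2 := by
    rw [add_mul, one_mul, h2]
  rw [h3]
  have h4 : η * k ^ 2 ≤ Real.log |k| * k ^ 2 := by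
    apply mul_le_mul_of_nonneg_right _ hk2.le
    linarith only [hη2, hlog2, hlogk]
  nlinarith only [h4, hmle]

/-- finite-time lower bound -/
theorem finite_time {k : ℝ} (hk : 2 ≤ |k|) {n : ℕ} (hn : 1 ≤ n) :
    Real.log (Real.pi * |k|) - 40 * (√n * Real.log |k| / |k|)
      - 400 * (n * (Real.log |k|) ^ 2 / k ^ 2) ≤ u n k / n := by
  have hπ := Real.pi_gt_three
  have hkpos : 0 < |k| := by linarith only [hk]
  have hk2 : 0 < k ^ 2 := by rw [← sq_abs]; positivity
  have hnpos : (0 : ℝ) < n := by exact_mod_cast hn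
  have hlog2 := Real.log_two_gt_d9
  have hlogk : Real.log 2 ≤ Real.log |k| := Real.log_le_log (by norm_num) hk
  have hlogpos : 0 < Real.log |k| := by linarith only [hlog2, hlogk]
  set y := √n * Real.log |k| / |k| with hy
  have hypos : 0 < y := by positivity
  have hy2 : n * (Real.log |k|) ^ 2 / k ^ 2 = y ^ 2 := by
    rw [hy, div_pow, mul_pow, Real.sq_sqrt hnpos.le, sq_abs]
  rw [hy2]
  have hL : Real.log (2 + 2 * Real.pi * |k|) ≤ 4 * Real.log |k| := by
    have h1 : 2 + 2 * Real.pi * |k| ≤ |k| ^ 4 := by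
      have h2 : 2 + 2 * Real.pi * |k| ≤ 8 * |k| := by
        have := Real.pi_lt_d2
        nlinarith only [hk, this]
      have h3 : (8 : ℝ) ≤ |k| ^ 3 := by
        calc (8 : ℝ) = 2 ^ 3 := by norm_num
          _ ≤ |k| ^ 3 := by (clear * - hk; gcongr)
      calc 2 + 2 * Real.pi * |k| ≤ 8 * |k| := h2
        _ ≤ |k| ^ 3 * |k| := by (clear * - h3 hk; gcongr)
        _ = |k| ^ 4 := by ring
    have h4 := Real.log_le_log (by positivity) h1
    rw [Real.log_pow] at h4
    exact_mod_cast h4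
  have hL0 : 0 ≤ Real.log (2 + 2 * Real.pi * |k|) := Real.log_nonneg (by
    have : 0 ≤ 2 * Real.pi * |k| := by positivity
    linarith only [this])
  have key : ∀ η : ℝ, 0 < η → η ≤ 1 / 2 →
      Real.log (Real.pi * |k|) - 2 * η - 196 * y ^ 2 / η ≤ u n k / n := by
    intro η hη hη2
    have h1 := u_ge (k := k) (by nlinarith only [hk, hπ]) hη hη2 n
    rw [le_div_iff₀ hnpos]
    refine le_trans ?_ h1
    rw [mul_comm]
    apply mul_le_mul_of_nonneg_left _ hnpos.le
    have h2 := real_bp_log hk hη hη2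
    have h3 : -(2 * η) ≤ Real.log (1 - η) := by
      have h4 := Real.one_sub_inv_le_log_of_pos (show 0 < 1 - η by linarith only [hη2])
      have h5 : -(2 * η) ≤ 1 - (1 - η)⁻¹ := by
        rw [le_sub_comm, inv_le_comm₀ (by linarith only [hη2]) (by linarith only [hη])]
        rw [inv_le_comm₀ (by linarith only [hη]) (by linarith only [hη2])]
        rw [inv_eq_one_div, div_le_iff₀ (by linarith only [hη2])]
        nlinarith only [hη, hη2]
      linarith only [h4, h5]
    have h6 : n * mQ.real (bp k (2 / η)) * Real.log (2 + 2 * Real.pi * |k|)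
        ≤ 196 * y ^ 2 / η := by
      calc n * mQ.real (bp k (2 / η)) * Real.log (2 + 2 * Real.pi * |k|)
          ≤ n * (49 * Real.log |k| / (η * k ^ 2)) * (4 * Real.log |k|) := by (clear * - h2 hn hL hL0 hlogpos hη hk2; gcongr)
        _ = 196 * (n * (Real.log |k|) ^ 2 / k ^ 2) / η := by field_simp; ring
        _ = 196 * y ^ 2 / η := by rw [hy2]
    linarith only [h3, h6]
  rcases le_or_gt (10 * y) (1 / 2) with h | h
  · have h1 := key (10 * y) (by (clear * - hn hlogpos hk; positivity)) h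
    have h2 : 196 * y ^ 2 / (10 * y) = 98 / 5 * y := by field_simp; norm_num
    rw [h2] at h1
    have : 0 ≤ 400 * y ^ 2 := by positivity
    linarith only [hypos, h1, this]
  · have h1 := key (1 / 2) (by norm_num) le_rfl
    have h2 : 196 * y ^ 2 / (1 / 2) = 392 * y ^ 2 := by ring
    rw [h2] at h1
    have : 0 ≤ y ^ 2 := by (clear * - hn hlogpos hk; positivity)
    linarith only [h, h1, this]

end Vale.Agent.P108.FT
end
end
end

section

section

section

open MeasureTheory Filter Set Topology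

namespace Vale.Agent.P108.FT

theorem main :
    (∀ k : ℝ, Tendsto (fun n : ℕ => (∫ z in Q, Real.log ‖fderiv ℝ (F k)^[n] z‖) / n) atTop
      (𝓝 (ent k))) ∧
    (∀ k : ℝ, ∀ n : ℕ, 1 ≤ n → ent k ≤ (∫ z in Q, Real.log ‖fderiv ℝ (F k)^[n] z‖) / n) ∧
    (∀ k : ℝ, 2 ≤ |k| → ∀ n : ℕ, 1 ≤ n →
      Real.log (Real.pi * |k|) - 40 * (√n * Real.log |k| / |k|)
        - 400 * (n * (Real.log |k|) ^ 2 / k ^ 2)
      ≤ (∫ z in Q, Real.log ‖fderiv ℝ (F k)^[n] z‖) / n) :=
  ⟨tendsto_u, fun k _ hn => ent_le_u hn k, fun _ hk _ hn => finite_time hk hn⟩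

end Vale.Agent.P108.FT
end
end
end
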